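import Vale.Agent.P210R.Sta

/-!
# P210D: the real inequality `ALG` (helper41)
-/

set_option linter.all false

namespace Vale.Agent.P210D

theorem alg1 {p x B δ a c : ℝ} (p0 : 0 ≤ p) (x0 : 0 ≤ x) (δ0 : 0 < δ) (h1 : 16 * δ ≤ a)
    (h2 : a ≤ 1 / 100) (h3 : 1000 * a ^ 2 ≤ δ * c) : 3 / 100 * δ * B ^ 2 ≤ c * p ^ 2 +
      (1 - δ / 50) * ((1 - a) * p + (1 - δ) * x + B) ^ 2 + 17 / 5 * δ * x ^ 2 - 4 * B * p -
      2 * (2 - δ) * B * x := by
  obtain ⟨A, hA⟩ : ∃ A, A = (1 - a) * p + (1 - δ) * x := ⟨_, rfl⟩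
  obtain ⟨u, rfl⟩ : ∃ u, B = A - u := ⟨A - B, by ring⟩
  have a0 : 0 < a := by linarith
  have A0 : 0 ≤ A := by rw [hA]; exact add_nonneg (mul_nonneg (by linarith) p0) (mul_nonneg (by linarith) x0)
  have A1 : A ≤ p + x := by nlinarith [mul_nonneg a0.le p0, mul_nonneg δ0.le x0]
  have c1 : 16000 * a ≤ c := le_of_mul_le_mul_left (by nlinarith) δ0
  have k1 : 4 * a * p * x ≤ δ / 2 * x ^ 2 + c / 100 * p ^ 2 := le_of_mul_le_mul_left (by
    nlinarith [sq_nonneg (δ * x - 4 * a * p), mul_le_mul_of_nonneg_right h3 (sq_nonneg p),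
      sq_nonneg (a * p)]) δ0
  have k2 := mul_le_mul_of_nonneg_left A1 (mul_nonneg a0.le p0)
  have k3 := mul_le_mul_of_nonneg_left A1 (mul_nonneg δ0.le x0)
  have k4 := mul_le_mul_of_nonneg_right c1 (sq_nonneg p)
  have k5 := mul_le_mul_of_nonneg_right h1 (sq_nonneg p)
  have k6 : (a * p) ^ 2 ≤ 1 / 100 * a * p ^ 2 := by
    nlinarith [mul_le_mul_of_nonneg_right h2 (mul_nonneg a0.le (sq_nonneg p))]
  have k7 : (δ * x) ^ 2 ≤ 1 / 100 * δ * x ^ 2 := by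
    nlinarith [mul_le_mul_of_nonneg_right (show δ ≤ 1 / 100 by linarith)
      (mul_nonneg δ0.le (sq_nonneg x))]
  have k8 : δ * u ^ 2 ≤ 1 / 100 * u ^ 2 := mul_le_mul_of_nonneg_right (by linarith) (sq_nonneg u)
  have k9 : A ^ 2 ≤ 2 * p ^ 2 + 2 * x ^ 2 := by
    nlinarith [pow_le_pow_left₀ A0 A1 2, sq_nonneg (p - x)]
  have k10 := mul_le_mul_of_nonneg_left k9 δ0.le
  have k11 := mul_nonneg δ0.le (sq_nonneg (A + u))
  have k12 := mul_nonneg δ0.le (sq_nonneg (x - 10 * p))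
  have k13 := mul_nonneg δ0.le (sq_nonneg x)
  have k14 := mul_nonneg a0.le (sq_nonneg p)
  have e : 4 * (A - u) * p + 2 * (2 - δ) * (A - u) * x =
      4 * A * (A - u) + 4 * a * p * (A - u) + 2 * δ * x * (A - u) := by rw [hA]; ring
  rw [← hA]
  nlinarith [sq_nonneg (u + 8 * a * p), sq_nonneg (u + 4 * δ * x), sq_nonneg u]

theorem alg2 {p x B δ a α : ℝ} (p0 : 0 ≤ p) (x0 : 0 ≤ x) (B0 : 0 ≤ B) (δ0 : 0 < δ)
    (h1 : 16 * δ ≤ a) (h2 : a ≤ 1 / 100) (h3 : 2 * B ≤ α) (h4 : 4 * α ≤ p + x) :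
    α ^ 2 ≤ (1 - δ / 50) * ((1 - a) * p + (1 - δ) * x + B) ^ 2 - 4 * B * p -
      2 * (2 - δ) * B * x := by
  have k1 : 99 / 100 * (p + x) ≤ (1 - a) * p + (1 - δ) * x + B := by
    nlinarith [mul_nonneg (sub_nonneg.2 h2) p0, mul_nonneg (show 0 ≤ 1 / 100 - δ by linarith) x0]
  have k2 := pow_le_pow_left₀ (by positivity) k1 2
  have k3 := mul_le_mul (show 99 / 100 ≤ 1 - δ / 50 by linarith) k2 (by positivity) (by linarith)
  have k4 := pow_le_pow_left₀ (by linarith) h4 2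
  have k5 := mul_le_mul_of_nonneg_right (show 8 * B ≤ p + x by linarith) (add_nonneg p0 x0)
  nlinarith [mul_nonneg (mul_nonneg δ0.le B0) x0]

theorem alg_xr {r z X : ℝ} (r0 : 0 < r) (z0 : 0 ≤ z) (X0 : 0 ≤ X) : X / (r * (1 + z)) ≤ X / r :=
  div_le_div_of_nonneg_left X0 r0 (le_mul_of_one_le_right r0.le (le_add_of_nonneg_right z0))

theorem alg_t0 {r δ a A A₀ T Y : ℝ} (r0 : 0 < r) (δ0 : 0 < δ) (A0 : 0 ≤ A) (h2 : 4 * A * δ ≤ a)
    (T0 : 0 ≤ T) (h : T ≤ 2 * A₀) (hY : A₀ ^ 2 ≤ Y * r) : A * δ * (T ^ 2 / r) ≤ a * Y := by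
  have Y0 : 0 ≤ Y := le_of_mul_le_mul_right (by nlinarith [sq_nonneg A₀]) r0
  have : T ^ 2 / r ≤ 4 * Y := (div_le_iff₀ r0).2 (by nlinarith [pow_le_pow_left₀ T0 h 2])
  nlinarith [mul_le_mul_of_nonneg_left this (mul_nonneg A0 δ0.le), mul_le_mul_of_nonneg_right h2 Y0]

theorem alg_t2 {r r₀ z X α δ η b : ℝ} (hr0 : 0 < r₀) (hr : r₀ ≤ r) (z0 : 0 ≤ z) (X0 : 0 ≤ X)
    (α0 : 0 < α) (δ0 : 0 < δ) (d2 : 0 ≤ 2 - δ) (η0 : 0 ≤ η) (bX : X ^ 2 / r ≤ b) :
    η * ((2 - δ) * α * (X / (r * (1 + z)))) ≤ δ / 20 * b + 20 * η ^ 2 * α ^ 2 / (δ * r₀) := by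
  have r0 : 0 < r := hr0.trans_le hr
  have x1 := alg_xr r0 z0 X0
  have k1 : η * ((2 - δ) * α * (X / (r * (1 + z)))) ≤ η * (2 * α * (X / r)) :=
    mul_le_mul_of_nonneg_left (mul_le_mul (mul_le_mul_of_nonneg_right (by linarith) α0.le) x1
      (by positivity) (by positivity)) η0
  have k2 : 20 * η ^ 2 * α ^ 2 / (δ * r) ≤ 20 * η ^ 2 * α ^ 2 / (δ * r₀) := by gcongr
  have k3 : δ / 20 * (X ^ 2 / r) + 20 * η ^ 2 * α ^ 2 / (δ * r) - η * (2 * α * (X / r)) =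
      (δ * X - 20 * η * α) ^ 2 / (20 * δ * r) := by field_simp; ring
  have k4 : 0 ≤ (δ * X - 20 * η * α) ^ 2 / (20 * δ * r) := by positivity
  linarith [mul_le_mul_of_nonneg_left bX (show 0 ≤ δ / 20 by positivity)]

theorem alg_t3 {r r₀ s z X α δ η b e E B : ℝ} (hr0 : 0 < r₀) (r0 : 0 < r) (s0 : 0 < s) (X0 : 0 ≤ X)
    (α0 : 0 < α) (δ0 : 0 < δ) (η1 : η ≤ 1 / 10) (bX : X ^ 2 / r ≤ b) (b0 : 0 ≤ b) (e0 : 0 ≤ e)
    (E0 : 0 ≤ E) (EB : E ≤ B) (hz : z = 2 * δ * (X + e) * s / (α * (s + r))) :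
    (1 + η) * (α * ((r₀ + z * r) / (r * (1 + z)) * E)) ≤
      11 / 10 * (α * (r₀ / r) * B) + δ * s * E ^ 2 + 31 / 100 * δ * b + 4 * δ * e * B := by
  have z0 : 0 ≤ z := by rw [hz]; positivity
  have B0 := E0.trans EB
  have k1 : (r₀ + z * r) / (r * (1 + z)) ≤ r₀ / r + z :=
    (alg_xr r0 z0 (by positivity)).trans_eq (by field_simp)
  have k2 : (1 + η) * (α * ((r₀ + z * r) / (r * (1 + z)) * E)) ≤
      11 / 10 * (α * ((r₀ / r + z) * E)) := by gcongr; linarith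
  have k3 : α * z = 2 * δ * (X * (s / (s + r))) + 2 * δ * (e * (s / (s + r))) := by
    rw [hz]; field_simp
  have k4 : s / (s + r) ≤ 1 := (div_le_one (by positivity)).2 (by linarith)
  have k5 : e * (s / (s + r)) * E ≤ e * 1 * B := by gcongr
  have k6 : (X * (s / (s + r))) ^ 2 ≤ s * (X ^ 2 / r) / 4 := by
    rw [mul_pow, div_pow, show s * (X ^ 2 / r) / 4 = X ^ 2 * (s / (4 * r)) by field_simp]
    refine mul_le_mul_of_nonneg_left ?_ (sq_nonneg X)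
    rw [div_le_div_iff₀ (by positivity) (by positivity)]
    nlinarith [mul_nonneg s0.le (sq_nonneg (s - r))]
  have k7 : 11 / 5 * (X * (s / (s + r))) * E ≤ s * E ^ 2 + 31 / 100 * b :=
    le_of_mul_le_mul_left (by
      nlinarith [sq_nonneg (s * E - 11 / 10 * (X * (s / (s + r)))),
        mul_le_mul_of_nonneg_left bX s0.le, mul_nonneg s0.le b0]) s0
  have k8 : α * (r₀ / r) * E ≤ α * (r₀ / r) * B := by gcongr
  have k9 := mul_le_mul_of_nonneg_left k7 δ0.le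
  have k10 := mul_le_mul_of_nonneg_left k5 δ0.le
  have k11 : α * ((r₀ / r + z) * E) = α * (r₀ / r) * E + (α * z) * E := by ring
  rw [k11, k3] at k2
  linarith [mul_nonneg (mul_nonneg δ0.le e0) B0]

theorem alg_t5 {r r₀ s α δ B : ℝ} (hr0 : 0 < r₀) (hr : r₀ ≤ r) (s0 : 0 < s) (α0 : 0 < α)
    (δ0 : 0 < δ) (B0 : 0 ≤ B) (h6 : 10000 * s * B ≤ δ * α) :
    (if r ≤ 3 / 4 * s then δ / 2000 * α ^ 2 / s else 0) + 11 / 10 * (α * (r₀ / r) * B) -
      4 * α * r₀ * B / s ≤ if r ≤ 3 / 4 * s then δ / 1600 * α ^ 2 / s else 0 := by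
  have r0 : 0 < r := hr0.trans_le hr
  have k0 : 0 ≤ α * r₀ * B / s := by positivity
  split_ifs with q
  · have k1 : α * (r₀ / r) * B ≤ α * 1 * B := by gcongr; exact (div_le_one r0).2 hr
    have k2 : α * B ≤ δ / 10000 * α ^ 2 / s := by
      rw [le_div_iff₀ s0]; nlinarith [mul_le_mul_of_nonneg_left h6 α0.le]
    have k3 : 0 ≤ δ * α ^ 2 / s := by positivity
    simp only [div_eq_mul_inv] at *
    linarith
  · have k1 : α * (r₀ / r) * B ≤ α * (r₀ / (3 / 4 * s)) * B := by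
      gcongr; exact (not_le.1 q).le
    have k2 : α * (r₀ / (3 / 4 * s)) * B = 4 / 3 * (α * r₀ * B / s) := by field_simp
    have k3 : 4 * α * r₀ * B / s = 4 * (α * r₀ * B / s) := by ring
    linarith

theorem alg_m5 {r s α δ β : ℝ} (s0 : 0 < s) (α0 : 0 < α) (δ0 : 0 < δ) (δ1 : δ ≤ 1)
    (β1 : α / s * r = α - 2 * β) :
    (if r ≤ 3 / 4 * s then δ / 1600 * α ^ 2 / s else 0) * r ≤ 3 / 100 * δ * β ^ 2 ∧
      (if r ≤ 3 / 4 * s then δ / 1600 * α ^ 2 / s else 0) * r ≤ α ^ 2 := by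
  split_ifs with q'
  · have n1 : α / s * r ≤ α / s * (3 / 4 * s) := by gcongr
    have n2 : α / s * (3 / 4 * s) = 3 / 4 * α := by field_simp
    have n3 : δ / 1600 * α ^ 2 / s * r = δ / 1600 * α * (α / s * r) := by ring
    have n4 : δ / 1600 * α * (α / s * r) ≤ δ / 1600 * α * (3 / 4 * α) :=
      mul_le_mul_of_nonneg_left (n1.trans_eq n2) (by positivity)
    have n5 := mul_le_mul_of_nonneg_left (pow_le_pow_left₀ α0.le
      (show α ≤ 8 * β by linarith) 2) δ0.le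
    have n6 := mul_le_mul_of_nonneg_right δ1 (sq_nonneg α)
    constructor <;> linarith [sq_nonneg α]
  · rw [zero_mul]
    exact ⟨by positivity, by positivity⟩

theorem alg_n4 {r s α δ X e z : ℝ} (r0 : 0 < r) (q : r < s) (α0 : 0 < α) (δ0 : 0 < δ)
    (δ1 : δ ≤ 1 / 1600) (X0 : 0 ≤ X) (X1 : X ≤ 4 * α) (e0 : 0 ≤ e) (eα : e ≤ α)
    (hz : z = 2 * δ * (X + e) * s / (α * (s + r))) :
    199 / 100 * (X * (99 / 100 * (δ * X))) ≤ (2 - δ) * (X * (α * z / (1 + z))) := by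
  have s0 := r0.trans q
  have z0 : 0 ≤ z := by rw [hz]; positivity
  have n2 : δ * X ≤ α * z ∧ z ≤ 1 / 100 := by
    rw [hz, show α * (2 * δ * (X + e) * s / (α * (s + r))) = 2 * δ * (X + e) * s / (s + r) by
      field_simp, le_div_iff₀ (by positivity), div_le_iff₀ (by positivity)]
    have l1 := mul_le_mul_of_nonneg_left q.le (mul_nonneg δ0.le X0)
    have l2 : δ * (X + e) * s ≤ 1 / 1600 * (5 * α) * s := by gcongr; linarith
    constructor <;> linarith [mul_nonneg (mul_nonneg δ0.le e0) s0.le, mul_pos α0 r0,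
      mul_pos α0 s0]
  have n3 : 99 / 100 * (δ * X) ≤ α * z / (1 + z) := by
    rw [le_div_iff₀ (by positivity)]
    linarith [mul_le_mul_of_nonneg_left n2.2 (mul_nonneg δ0.le X0), mul_nonneg δ0.le X0, n2.1]
  exact mul_le_mul (by linarith) (mul_le_mul_of_nonneg_left n3 X0) (by positivity) (by linarith)

theorem alg_t7 {r s α δ a c e S A₀ T X b P G z : ℝ} (r0 : 0 < r) (q : r < s) (α0 : 0 < α)
    (δ0 : 0 < δ) (h1 : 16 * δ ≤ a) (h3 : a ≤ 1 / 100) (h4 : 1000 * a ^ 2 ≤ δ * c) (e0 : 0 ≤ e)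
    (eα : e ≤ α) (TS : T ≤ S) (p0 : 0 ≤ A₀) (h8 : S ≤ 2 * A₀) (X0 : 0 ≤ X) (hb : X ^ 2 ≤ b * r)
    (hP : 0 ≤ (1 - a) * A₀ + (1 - δ) * X + α * (s - r) / (2 * s) →
      ((1 - a) * A₀ + (1 - δ) * X + α * (s - r) / (2 * s)) ^ 2 ≤ P * r) (G0 : 0 ≤ G)
    (hG : A₀ ≤ 4 * α → c * A₀ ^ 2 / r ≤ G) (hz : z = 2 * δ * (X + e) * s / (α * (s + r))) :
    (if r ≤ 3 / 4 * s then δ / 1600 * α ^ 2 / s else 0) ≤ G + (1 - δ / 50) * P +
      36 / 25 * δ * b + α / s * S + (2 - δ) * α * X / s - α * (T / r) -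
      (2 - δ) * α * (X / (r * (1 + z))) := by
  have s0 := r0.trans q
  have z0 : 0 ≤ z := by rw [hz]; positivity
  have d2 : 0 ≤ 2 - δ := by linarith
  obtain ⟨β, hβ⟩ : ∃ β, β = α * (s - r) / (2 * s) := ⟨_, rfl⟩
  have β0 : 0 ≤ β := by rw [hβ]; exact div_nonneg (mul_nonneg α0.le (by linarith)) (by linarith)
  have β1 : α / s * r = α - 2 * β := by rw [hβ]; field_simp; ring
  have β2 : 2 * β ≤ α := by linarith [show 0 ≤ α / s * r by positivity]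
  rw [← hβ] at hP
  have m1 := mul_le_mul_of_nonneg_left (hP (add_nonneg (add_nonneg (mul_nonneg (by linarith) p0)
    (mul_nonneg (by linarith) X0)) β0)) (show 0 ≤ 1 - δ / 50 by linarith)
  have m2 := mul_le_mul_of_nonneg_left hb δ0.le
  have m3 := mul_le_mul_of_nonneg_left TS α0.le
  have m4 := mul_le_mul_of_nonneg_left h8 β0
  have m5 := alg_m5 s0 α0 δ0 (by linarith) β1
  have m6 : (2 - δ) * α * (X / (r * (1 + z))) * r =
      (2 - δ) * α * X - (2 - δ) * (X * (α * z / (1 + z))) := by field_simp; ring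
  have m7 : 0 ≤ (2 - δ) * (X * (α * z / (1 + z))) := by positivity
  have m8 : α * (T / r) * r = α * T := by field_simp
  have m9 : (2 - δ) * α * X / s * r = (2 - δ) * X * (α / s * r) := by ring
  have m10 : α / s * S * r = S * (α / s * r) := by ring
  have m11 := mul_nonneg G0 r0.le
  have m12 := mul_nonneg δ0.le (sq_nonneg X)
  refine le_of_mul_le_mul_right ?_ r0
  rw [sub_mul, sub_mul, add_mul, add_mul, m6, m8, m9, m10, β1]
  by_cases st : 4 * α ≤ A₀ + X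
  · linarith [alg2 p0 X0 β0 δ0 h1 h3 β2 st, m5.2]
  · linarith [alg1 (B := β) p0 X0 δ0 h1 h3 h4, m5.1, (div_le_iff₀ r0).1 (hG (by linarith)),
      alg_n4 r0 q α0 δ0 (by linarith) X0 (by linarith) e0 eα hz]

theorem alg_t6 {r s α δ S T X z t : ℝ} (s0 : 0 < s) (α0 : 0 < α) (d2 : 0 ≤ 2 - δ) (T0 : 0 ≤ T)
    (TS : T ≤ S) (X0 : 0 ≤ X) (z0 : 0 ≤ z) (t0 : 0 < t) (q : t * s ≤ r) :
    α * (T / r) ≤ t⁻¹ * (α / s * S) ∧
      (2 - δ) * α * (X / (r * (1 + z))) ≤ t⁻¹ * ((2 - δ) * α * X / s) := by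
  have r0 : 0 < r := (mul_pos t0 s0).trans_le q
  have S0 := T0.trans TS
  exact ⟨(show _ ≤ α * (S / (t * s)) by gcongr).trans_eq (by field_simp),
    (show _ ≤ (2 - δ) * α * (X / (t * s)) from mul_le_mul_of_nonneg_left
      ((alg_xr r0 z0 X0).trans (by gcongr)) (by positivity)).trans_eq (by field_simp)⟩

theorem alg : P210R.ALG := by
  intro r s α δ a c Λ E B e η r₀ N A S A₀ T X b P Y D G z hr0 hr s0 α0 δ0 h1 A0 h2 h3 h4 h5 Λ0 E0
    EB e0 eα η0 η1 h6 T0 TS TN h7 h8 X0 b0 hb hY P0 hP D1 D2 G0 hG hz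
  have r0 : 0 < r := hr0.trans_le hr
  have a0 : 0 < a := by linarith only [h1, δ0]
  have δ1 : δ ≤ 1 := by linarith only [h1, h3]
  have S0 : 0 ≤ S := T0.trans TS
  have p0 : 0 ≤ A₀ := by linarith only [S0, h8]
  have z0 : 0 ≤ z := by rw [hz]; positivity
  have d2 : 0 ≤ 2 - δ := by linarith only [δ1]
  have bX : X ^ 2 / r ≤ b := (div_le_iff₀ r0).2 hb
  have t0 := alg_t0 r0 δ0 A0 h2 T0 (TS.trans h8) hY
  have t1 : η * (α * (T / r)) ≤ η * α * N / r₀ := by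
    rw [mul_div_assoc, mul_assoc]
    exact mul_le_mul_of_nonneg_left (mul_le_mul_of_nonneg_left
      (div_le_div₀ (T0.trans TN) TN hr0 hr) α0.le) η0
  have t2 := alg_t2 hr0 hr z0 X0 α0 δ0 d2 η0 bX
  have t3 := alg_t3 hr0 r0 s0 X0 α0 δ0 η1 bX b0 e0 E0 EB hz
  have t4 : (1 + η) * (2 * δ * Λ * s) ≤ 4 * s * Λ := by
    have : (1 + η) * δ ≤ 2 * 1 := mul_le_mul (by linarith only [η1]) δ1 δ0.le (by norm_num)
    linarith only [mul_le_mul_of_nonneg_right this (mul_nonneg Λ0 s0.le)]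
  have t5 := alg_t5 hr0 hr s0 α0 δ0 (E0.trans EB) h6
  have k2 : 0 ≤ δ * b := by positivity
  have t6 : (if r ≤ 3 / 4 * s then δ / 1600 * α ^ 2 / s else 0) - 4 / a * s * Λ ≤
      G + (1 - δ / 50) * P + 36 / 25 * δ * b + α / s * S + (2 - δ) * α * X / s - D -
        α * (T / r) - (2 - δ) * α * (X / (r * (1 + z))) := by
    have k0 : 0 ≤ 4 / a * s * Λ := by positivity
    have k1 : 0 ≤ (1 - δ / 50) * P := mul_nonneg (by linarith only [δ1]) P0
    have k3 : r ≤ 2 * s → D ≤ 4 / a * s * Λ := fun q =>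
      D1.trans ((mul_le_mul_of_nonneg_left q (by positivity)).trans_eq (by ring))
    rcases le_or_gt s r with q | q
    · rw [if_neg (by linarith only [q, s0])]
      rcases le_total r (2 * s) with q' | q'
      · have := alg_t6 s0 α0 d2 T0 TS X0 z0 one_pos ((one_mul s).trans_le q)
        rw [inv_one, one_mul, one_mul] at this
        linarith only [this.1, this.2, k3 q', k1, k2, G0]
      · have := alg_t6 s0 α0 d2 T0 TS X0 z0 two_pos q'
        have k5 : 0 ≤ α / s * S := by positivity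
        have k6 : 0 ≤ α * X / s := by positivity
        have k7 : 1 * (α * X / s) ≤ (2 - δ) * (α * X / s) :=
          mul_le_mul_of_nonneg_right (by linarith only [δ1]) k6
        have k8 : α / (4 * s) * (S + X) = (α / s * S + α * X / s) / 4 := by field_simp
        have k9 : (2 - δ) * α * X / s = (2 - δ) * (α * X / s) := by ring
        linarith only [this.1, this.2, k0, k1, k2, G0, k5, k6, k7, k8, k9, D2]
    · linarith only [alg_t7 r0 q α0 δ0 h1 h3 h4 e0 eα TS p0 h8 X0 hb hP G0 hG hz,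
        k3 (by linarith only [q, s0])]
  linarith only [t0, t1, t2, t3, t4, t5, t6, k2]

end Vale.Agent.P210D
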