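import Vale.Agent.P210D.One

/-!
# P210D: the drift move
-/

open Filter Topology Set Finset
open scoped ContDiff
open Vale.Agent.P366M Vale.Agent.P366M.Gr Vale.Agent.P366M.Y.C Vale.Agent.P366M.Y.C.GbH
open Vale.Agent.P210G Vale.Agent.P210T Vale.Agent.P210R

noncomputable section

namespace Vale.Agent.P210D

theorem exists_cut : ∃ (κ : ℝ → ℝ) (D : ℝ), ContDiff ℝ ∞ κ ∧ (∀ t, 0 ≤ κ t ∧ κ t ≤ 1) ∧
    (∀ t ≤ 4, κ t = 1) ∧ (∀ t > 8, κ t = 0 ∧ deriv κ t = 0) ∧
    ∀ t, 0 ≤ t → t ≤ 8 → deriv κ t ^ 2 ≤ D ^ 2 := by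
  have h : ContDiff ℝ ∞ fun t : ℝ => Real.smoothTransition ((8 - t) / 4) :=
    Real.smoothTransition.contDiff.comp (by fun_prop)
  obtain ⟨D, hD⟩ := (isCompact_Icc (a := (0 : ℝ)) (b := 8)).exists_bound_of_continuousOn
    (h.continuous_deriv (by simp)).continuousOn
  have z : ∀ t > (8 : ℝ), Real.smoothTransition ((8 - t) / 4) = 0 := fun t ht =>
    Real.smoothTransition.zero_of_nonpos (by linarith)
  refine ⟨_, D, h, fun t => ⟨Real.smoothTransition.nonneg _, Real.smoothTransition.le_one _⟩,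
    fun t ht => Real.smoothTransition.one_of_one_le (by linarith), fun t ht => ⟨z t ht, ?_⟩,
    fun t h0 h1 => sq_le_sq' (abs_le.1 (hD t ⟨h0, h1⟩)).1 (abs_le.1 (hD t ⟨h0, h1⟩)).2⟩
  rw [EventuallyEq.deriv_eq (f := fun _ => 0) ((eventually_gt_nhds ht).mono z), deriv_const]

variable {n : ℕ} {M : Type} [Mf0 n M] {g : Fld n M} {w : ℕ → M → ℝ} {m : ℕ} {x : M} {q r₀ : ℝ}
  {f : M → ℝ}

/-- `Y = ∑ N (f) N` -/
def yv (g : Fld n M) (w : ℕ → M → ℝ) (m : ℕ) (f : M → ℝ) : Fin n → M → ℝ := fun i x =>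
  ∑ j ∈ range m, dn (gs g w j) (w j) f x * nv (gs g w j) (w j) i x

variable (hg : Met g) (hw : ∀ j, Smooth (w j))
include hg hw

theorem sm_aa (m : ℕ) : Smooth (aa g w m) :=
  CD.sum fun j _ => CD.sub cd_const (sm_uu (met_gs hg hw j) (hw j))

theorem cv_yv (hf : Smooth f) (m : ℕ) : CV ∞ (yv g w m f) :=
  CV.sum (X := fun j i x => dn (gs g w j) (w j) f x * nv (gs g w j) (w j) i x) fun j _ =>
    CV.smul (sm_dn (met_gs hg hw j) (hw j) hf) (cv_nv (met_gs hg hw j) (hw j))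

theorem Dv_yv {G : Fld n M} (hG : Met G) (hf : Smooth f) (v : Fin n → M → ℝ) (x : M) :
    Dv G v (yv g w m f) x =
      ∑ j ∈ range m, dn (gs g w j) (w j) f x * Dv G v (nv (gs g w j) (w j)) x +
        ∑ j ∈ range m, dn (gs g w j) (w j) (dn (gs g w j) (w j) f) x := by
  have d1 := fun j => (sm_dn (met_gs hg hw j) (hw j) hf).diff x
  have d2 := fun j => dV_nv (met_gs hg hw j) ((hw j).c2 x)
  unfold yv
  rw [Dv_sum hG _ (Z := fun j i x => dn (gs g w j) (w j) f x * nv (gs g w j) (w j) i x)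
    fun j => DV.smul (d1 j) (d2 j), ← Finset.sum_add_distrib]
  exact Finset.sum_congr rfl fun j _ => by rw [Dv_smul hG (d1 j) (d2 j), ev_df_nv (met_gs hg hw j)]

theorem dn_sum_le (f : M → ℝ) (x : M) :
    ∑ j ∈ range m, dn (gs g w j) (w j) f x ^ 2 ≤ th g w m x * ip g f f x := by
  rw [th, Finset.sum_mul]
  exact Finset.sum_le_sum fun j _ => dn_sq hg hw j f x

theorem gq_yv (ht : th g w m x ≤ 1 / 2) (f : M → ℝ) :
    gq (gs g w m) (yv g w m f) (yv g w m f) x ≤ th g w m x * ip g f f x * (2 * th g w m x) := by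
  have hG := met_gs hg hw m
  refine (gq_sum_le hG (range m) (fun j => dn (gs g w j) (w j) f x) (fun j => nv (gs g w j) (w j))
    fun _ => rfl).trans (mul_le_mul (dn_sum_le hg hw f x) ?_
      (sum_nonneg fun _ _ => gq_nonneg hG _ x) (mul_nonneg (th_nn hg hw m x) (hg.ip_nonneg f x)))
  rw [th, Finset.mul_sum]
  exact Finset.sum_le_sum fun j _ => gq_N hg hw ht le_rfl j

theorem ev_aa (q0 : 0 ≤ q) (q1 : q ≤ 1) (Y : Fin n → M → ℝ) (x : M) :
    ev (df (aa g w m)) Y x ^ 2 ≤ th g w m x * (gq (gs g w m) Y Y x *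
      (4 * ∑ j ∈ range m, hq q (gs g w j) (w j) x +
        8 * ∑ j ∈ range m, P210R.yy (gs g w j) (w j) x ^ 2)) := by
  have G0 := gq_nonneg (met_gs hg hw m) Y x
  have e : ev (df (aa g w m)) Y x = ∑ j ∈ range m, -ev (df (uu (gs g w j) (w j))) Y x := by
    have d := fun j => (sm_uu (met_gs hg hw j) (hw j)).diff x
    unfold aa
    simp only [ev, df, pd_sum _ fun j _ => (d j).const_sub 1, pd_const_sub, Finset.sum_mul,
      ← Finset.sum_neg_distrib, neg_mul]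
    rw [Finset.sum_comm]
  rw [e, th, Finset.mul_sum _ _ 4, Finset.mul_sum _ _ 8, ← Finset.sum_add_distrib, Finset.mul_sum]
  refine sum_sq_le_sum_mul_sum_of_sq_le_mul _ (fun j _ => sg_nn hg hw j x) (fun j _ => ?_)
    fun j hj => ?_
  · have := hq_nn (met_gs hg hw j) (hw j) q x
    positivity
  have hj' := met_gs hg hw j
  have h0 := hq_nn hj' (hw j) q x
  have h1 := hess_ZN (x := x) hj' (hw j) q0 q1 Y
  have h2 : gq (gb (gs g w j) 1 (w j)) Y Y x ≤ gq (gs g w m) Y Y x :=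
    gq_le (j := j + 1) (Finset.mem_range.1 hj) Y x
  have h3 : uu (gs g w j) (w j) x ^ 2 ≤ 1 := sub_nonneg.1 (sg_nn hg hw j x)
  rw [ev_uu hj' (hw j), neg_neg, sq (uu _ _ _), mul_assoc, mul_pow, ← sq (uu _ _ _)]
  refine (mul_le_of_le_one_left (sq_nonneg _) h3).trans (h1.trans
    (mul_le_mul_of_nonneg_left (mul_le_mul h2 (by linarith) (by positivity) G0) (sg_nn hg hw j x)))

omit hg hw in
/-- **DRIFT** -/
theorem drift : DRIFT := by
  obtain ⟨κ, D, κs, κ0, κ1, κ2, κ3⟩ := exists_cut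
  refine ⟨2000 + 524288 * D ^ 2, by nlinarith [sq_nonneg D], fun n M _ g w m χ q c α r₀ hn hg hw hp
    hχ χ0 q0 q1 c0 c1 α0 α1 hr => ?_⟩
  have hG := met_gs hg hw m
  have sf := sm_ff hw hr m
  have sY := cv_yv hg hw sf m
  have sa : Smooth fun y => aa g w m y / α := CD.div_const (sm_aa hg hw m) α
  have sk : Smooth fun y => κ (aa g w m y / α) := κs.compM sa
  have sψ : Smooth fun y => c * (κ (aa g w m y / α) * χ y) := CD.mul cd_const (CD.mul sk hχ)
  have sX := CV.smul sψ sY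
  refine ⟨_, cc_fl hG sX, fun x h i => by simp [fl, h], fun v hv x l l0 l1 => ?_⟩
  have dκ := (κs.differentiable (by simp) (aa g w m x / α)).hasDerivAt
  have e1 : ev (df fun y => c * (κ (aa g w m y / α) * χ y)) (yv g w m (ff r₀ w m)) x =
      c * (deriv κ (aa g w m x / α) * χ x * ev (df (aa g w m)) (yv g w m (ff r₀ w m)) x / α +
        κ (aa g w m x / α) * ev (df χ) (yv g w m (ff r₀ w m)) x) := by
    rw [ev_lin (s := c * (deriv κ (aa g w m x / α) * χ x / α)) (t := c * κ (aa g w m x / α))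
      (b := df (aa g w m)) (c := df χ) fun i => by
        rw [df, pd_const_mul, pd_mul (sk.diff x) (hχ.diff x),
          pd_comp (f := fun y => aa g w m y / α) dκ (sa.diff x)]
        simp only [div_eq_mul_inv, pd_mul_const, df]
        ring]
    ring
  have e2 : gq (gs g w m) (fun i y => c * (κ (aa g w m y / α) * χ y) * yv g w m (ff r₀ w m) i y)
      (fun i y => c * (κ (aa g w m y / α) * χ y) * yv g w m (ff r₀ w m) i y) x =
      (c * κ (aa g w m x / α) * χ x) ^ 2 *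
        gq (gs g w m) (yv g w m (ff r₀ w m)) (yv g w m (ff r₀ w m)) x := by
    simp only [gq, Finset.mul_sum]
    exact Finset.sum_congr rfl fun _ _ => Finset.sum_congr rfl fun _ _ => by ring
  rw [Rv_add hG (dV_sh hG hv x) (dV_sh hG (cc_fl hG sX) x), sh_fl hG, iv_fl hG, e2,
    Dv_smul hG (sψ.diff x) (sY.dv (by simp) x), e1, Dv_yv hg hw hG sf]
  have Q0 : 0 ≤ ∑ j ∈ range m, hq q (gs g w j) (w j) x :=
    sum_nonneg fun j _ => hq_nn (met_gs hg hw j) (hw j) q x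
  have Y0 : 0 ≤ ∑ j ∈ range m, P210R.yy (gs g w j) (w j) x ^ 2 := sum_nonneg fun _ _ => sq_nonneg _
  have H0 : 0 ≤ ∑ j ∈ range m, Dv (gs g w m) v (nv (gs g w j) (w j)) x ^ 2 :=
    sum_nonneg fun _ _ => sq_nonneg _
  have F0 := hG.ip_nonneg (ff r₀ w m) x
  have I0 := hG.ip_nonneg χ x
  have a0 := aa_nn hg hw m x
  have l2 : 0 < l := α0.trans_le l0
  have n1 : (1 : ℝ) ≤ n := by exact_mod_cast hn
  by_cases h : aa g w m x ≤ 8 * α
  · have α2 := (alg_c rfl n1 c0 c1 α0 α1).2.2.2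
    have ht : th g w m x ≤ 1 / 2 := by linarith [th_le_aa hg hw m x]
    obtain ⟨A, B, E, h1, h2, h3, h4⟩ := s2_ge hg hw ht hp q0 q1 hn hr
    have h5 : (∑ j ∈ range m, dn (gs g w j) (w j) (ff r₀ w m) x *
        Dv (gs g w m) v (nv (gs g w j) (w j)) x) ^ 2 ≤ _ := (sum_mul_sq_le_sq_mul_sq _ _ _).trans
      (mul_le_mul_of_nonneg_right (dn_sum_le hg hw _ x) H0)
    have k := fin_alg rfl n1 c0 c1 α0 α1 l0 l1 (rr_pos hr w m x) a0 (aa_le_th hg hw m x)
      (th_le_aa hg hw m x) h (hg.ip_nonneg _ x) (iv_two hg hw ht le_rfl (df (ff r₀ w m))) I0 Q0 Y0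
      H0 (κ0 (aa g w m x / α)).1 (κ0 _).2 (κ3 _ (div_nonneg a0 α0.le) ((div_le_iff₀ α0).2 h))
      (χ0 x).1 (χ0 x).2 h1 h2 h3 h4 h5 (gq_nonneg hG _ x) (gq_yv hg hw ht _)
      (ev_aa hg hw q0 q1 _ x) (ev_cs hG (df χ) _ x)
    rw [iv_df] at k
    split_ifs with h'
    · rw [κ1 _ ((div_le_iff₀ α0).2 h')] at k ⊢
      rw [one_mul (χ x)] at k
      linarith
    · have : 0 ≤ κ (aa g w m x / α) * χ x * c * aa g w m x ^ 2 / (4 * n * rr r₀ w m x) := by
        have := (κ0 (aa g w m x / α)).1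
        have := (χ0 x).1
        have := rr_pos hr w m x
        positivity
      linarith
  · obtain ⟨z1, z2⟩ := κ2 _ ((lt_div_iff₀ α0).2 (not_le.1 h))
    rw [if_neg (by linarith), z1, z2, zero_mul (χ x), zero_mul, zero_div]
    have p1 : 0 ≤ (2000 + 524288 * D ^ 2) * (c + c ^ 2 / l) * α *
        ip (gs g w m) (ff r₀ w m) (ff r₀ w m) x := by positivity
    have p2 : 0 ≤ (2000 + 524288 * D ^ 2) * c * (aa g w m x ^ 2 / α) * ip (gs g w m) χ χ x := by
      positivity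
    linarith [mul_nonneg l2.le Y0, mul_nonneg l2.le H0]

end Vale.Agent.P210D
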