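import Vale.Agent.P210D.Sw

/-!
# P210D: the second order part of the divergence of the drift (helper41)
-/

set_option linter.all false

open Filter Topology Set
open scoped ContDiff

noncomputable section

namespace Vale.Agent.P210D

open Vale.Agent.P366M Vale.Agent.P366M.Gr Vale.Agent.P366M.Y.C Vale.Agent.P366M.Y.C.GbH
open Vale.Agent.P210G Vale.Agent.P210T Vale.Agent.P210R Finset

theorem sum_sq_le' {ι : Type*} (s : Finset ι) {a t : ι → ℝ} {K : ℝ} (ht : ∀ i ∈ s, 0 ≤ t i)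
    (hK : 0 ≤ K) (h : ∀ i ∈ s, a i ^ 2 ≤ t i ^ 2 * K) :
    (∑ i ∈ s, a i) ^ 2 ≤ (∑ i ∈ s, t i) ^ 2 * K := by
  have := Finset.sum_sq_le_sum_mul_sum_of_sq_le_mul s (r := a) (g := fun i => t i * K) ht
    (fun i hi => mul_nonneg (ht i hi) hK) fun i hi => (h i hi).trans_eq (by ring)
  rw [← Finset.sum_mul] at this
  exact this.trans_eq (by ring)

variable {n : ℕ} {M : Type} [Mf0 n M] {g G : Fld n M} {w : ℕ → M → ℝ} {u f : M → ℝ} {x : M}
  {j k l m : ℕ} {q r₀ : ℝ}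

/-! ### the radial function -/

omit [Mf0 n M] in
theorem rr_pos (hr : 0 < r₀) (w : ℕ → M → ℝ) (m : ℕ) (x : M) : 0 < rr r₀ w m x :=
  add_pos_of_pos_of_nonneg hr (Finset.sum_nonneg fun _ _ => sq_nonneg _)

theorem sm_rr (hw : ∀ j, Smooth (w j)) (r₀ : ℝ) (m : ℕ) : Smooth (rr r₀ w m) :=
  CD.add cd_const (CD.sum fun j _ => CD.pow (hw j) 2)

theorem sm_ff (hw : ∀ j, Smooth (w j)) (hr : 0 < r₀) (m : ℕ) : Smooth (ff r₀ w m) :=
  CD.div_const (CD.log (sm_rr hw r₀ m) fun x => (rr_pos hr w m x).ne') 2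

theorem pd_ff (hw : ∀ j, Smooth (w j)) (hr : 0 < r₀) (m : ℕ) (a : Fin n) (x : M) :
    pd a (ff r₀ w m) x = pd a (rr r₀ w m) x / (2 * rr r₀ w m x) := by
  rw [show ff r₀ w m = fun y => 2⁻¹ * Real.log (rr r₀ w m y) from funext fun y => by rw [ff]; ring,
    pd_const_mul, pd_log ((sm_rr hw r₀ m).diff x) (rr_pos hr w m x).ne']
  ring

theorem hess_ff (hw : ∀ j, Smooth (w j)) (hr : 0 < r₀) (G : Fld n M) (m : ℕ) (x : M) (a b : Fin n) :
    hess G (ff r₀ w m) x a b = (rr r₀ w m x)⁻¹ * ∑ i ∈ range m, (w i x * hess G (w i) x a b +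
      pd a (w i) x * pd b (w i) x) - 2 * (pd a (ff r₀ w m) x * pd b (ff r₀ w m) x) := by
  have h0 := (rr_pos hr w m x).ne'
  have d2 : deriv (deriv Real.log) (rr r₀ w m x) = -(rr r₀ w m x ^ 2)⁻¹ := by
    rw [Real.deriv_log', deriv_inv]
  have e : hess G (rr r₀ w m) x a b = 2 * ∑ i ∈ range m, (w i x * hess G (w i) x a b +
      pd a (w i) x * pd b (w i) x) := by
    rw [show rr r₀ w m = fun y => ∑ i ∈ range m, w i y * w i y + r₀ from funext fun y => by
      simp only [rr, sq, add_comm], hess_add_const,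
      hess_sum _ fun i _ => Smooth.c2 (CD.mul (hw i) (hw i)) x, Finset.mul_sum]
    exact Finset.sum_congr rfl fun i _ => by rw [hess_mul ((hw i).c2 x) ((hw i).c2 x)]; ring
  rw [pd_ff hw hr, pd_ff hw hr]
  rw [show ff r₀ w m = fun y => 2⁻¹ * Real.log (rr r₀ w m y) from funext fun y => by rw [ff]; ring,
    hess_const_mul, hess_comp (Real.contDiffAt_log.2 h0) ((sm_rr hw r₀ m).c2 x), d2, e,
    Real.deriv_log]
  field_simp
  ring

theorem gq_hess_ff (hw : ∀ j, Smooth (w j)) (hr : 0 < r₀) (G : Fld n M) (m : ℕ)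
    (X : Fin n → M → ℝ) (x : M) : gq (hess G (ff r₀ w m)) X X x =
      (rr r₀ w m x)⁻¹ * ∑ i ∈ range m, (w i x * gq (hess G (w i)) X X x + ev (df (w i)) X x ^ 2) -
        2 * ev (df (ff r₀ w m)) X x ^ 2 := by
  simp only [sq, ← gq_tens]
  simp only [gq, hess_ff hw hr, df, Finset.mul_sum, Finset.sum_mul, sub_mul,
    Finset.sum_sub_distrib, ← Finset.sum_add_distrib, Finset.sum_comm (s := range m)]
  congr 1
  · exact Finset.sum_congr rfl fun _ _ => Finset.sum_congr rfl fun _ _ =>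
      Finset.sum_congr rfl fun _ _ => by ring
  · exact Finset.sum_congr rfl fun _ _ => Finset.sum_congr rfl fun _ _ => by ring

/-! ### one step -/

theorem sg_div (hg : Met g) (hp : 0 < u x) (q0 : 0 ≤ q) (q1 : q ≤ 1) :
    (q / u x * (1 - uu g u x ^ 2)) ^ 2 ≤ 4 * yy g u x ^ 2 := by
  have h1 := uu_pos hg u x
  have h2 := uu_le hg u x
  have e : q / u x * (1 - uu g u x ^ 2) = q * (1 + uu g u x) * yy g u x := by
    rw [P210R.yy]; field_simp; ring
  have h3 : (q * (1 + uu g u x)) ^ 2 ≤ 2 ^ 2 :=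
    pow_le_pow_left₀ (by positivity) (by nlinarith) 2
  rw [e, mul_pow]
  nlinarith [sq_nonneg (yy g u x)]

/-- the acceleration term -/
theorem acc_sq (hg : Met g) (hu : Smooth u) (hp : 0 < u x) (q0 : 0 ≤ q) (q1 : q ≤ 1) (f : M → ℝ) :
    (uu g u x * iv (gb g 1 u) (fl (hess g u) (nv g u)) (df f) x) ^ 2 ≤
      (1 - uu g u x ^ 2) * (ip g f f x * (2 * hq q g u x + 8 * yy g u x ^ 2)) := by
  have hg' := met_g hg hu
  have h1 := uu_pos hg u x
  have h2 := uu_le hg u x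
  have s0 : 0 ≤ 1 - uu g u x ^ 2 := by nlinarith
  have k1 := BB_sq_le hg hu q (sh (gb g 1 u) (df f)) (nv g u) x
  have k2 : gq (gb g 1 u) (sh (gb g 1 u) (df f)) (sh (gb g 1 u) (df f)) x ≤ ip g f f x := by
    refine le_trans (le_of_eq ?_) (iv_g_le hg u (df f) x)
    rw [gq_eq_ev, iv_eq_ev]
    exact Finset.sum_congr rfl fun a _ => congrArg (· * _) (hg'.g_up_mul x a fun b => df f b x)
  have k3 : ev (df u) (sh (gb g 1 u) (df f)) x = uu g u x * dn g u f x := by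
    rw [← iv_eq_ev, iv_sy hg', iv_eq_ev, ← ev_df_nv hg, ev, ev, Finset.mul_sum]
    exact Finset.sum_congr rfl fun a _ => by rw [sh_g_df hg]; ring
  have k4 : dn g u f x ^ 2 ≤ (1 - uu g u x ^ 2) * ip g f f x := by
    have := ev_cs hg (df f) (nv g u) x
    rwa [gq_nv' hg, ev_df_nv hg, iv_df, mul_comm] at this
  have k5 : (uu g u x * dn g u f x) ^ 2 ≤ (1 - uu g u x ^ 2) * ip g f f x := by
    rw [mul_pow]
    exact (mul_le_of_le_one_left (sq_nonneg _) (by nlinarith)).trans k4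
  have k6 := mul_le_mul (sg_div hg hp q0 q1) k5 (sq_nonneg _) (by positivity)
  rw [gq_nv' hg] at k1
  have k7 := k1.trans (mul_le_mul_of_nonneg_left (mul_le_mul_of_nonneg_right k2 s0)
    (hq_nn hg hu q x))
  have e : uu g u x * iv (gb g 1 u) (fl (hess g u) (nv g u)) (df f) x =
      uu g u x * gq (BB q g u) (sh (gb g 1 u) (df f)) (nv g u) x +
        q / u x * (1 - uu g u x ^ 2) * (uu g u x * dn g u f x) := by
    rw [iv_eq_ev, ← gq_eq_ev, gq_hess q, k3, ev_df_nv hg, ← uu_dn hg]; ring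
  rw [← mul_pow] at k6
  rw [e]
  nlinarith [sq_nonneg (uu g u x * gq (BB q g u) (sh (gb g 1 u) (df f)) (nv g u) x -
    q / u x * (1 - uu g u x ^ 2) * (uu g u x * dn g u f x))]

/-! ### sweeps -/

variable (hg : Met g) (hw : ∀ j, Smooth (w j)) (ht : th g w m x ≤ 1 / 2)
include hg hw ht

theorem uB_sq (q : ℝ) (hl : l < m) (j : ℕ) : (uu (gs g w l) (w l) x * gq (BB q (gs g w l) (w l))
    (nv (gs g w j) (w j)) (nv (gs g w j) (w j)) x) ^ 2 ≤
      (1 - uu (gs g w j) (w j) x ^ 2) ^ 2 * (4 * hq q (gs g w l) (w l) x) := by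
  have s0 := sg_nn hg hw j x
  refine (BB_sq_le (met_gs hg hw l) (hw l) q _ _ x).trans ((mul_le_mul_of_nonneg_left
    (mul_le_mul (gq_N hg hw ht hl j) (gq_N hg hw ht hl.le j) (gq_nonneg (met_gs hg hw l) _ x)
      (by positivity)) (hq_nn (met_gs hg hw l) (hw l) q x)).trans_eq (by ring))

theorem B_sq (q : ℝ) (hl : l < m) (j : ℕ) : gq (BB q (gs g w l) (w l))
    (nv (gs g w j) (w j)) (nv (gs g w j) (w j)) x ^ 2 ≤
      (1 - uu (gs g w j) (w j) x ^ 2) ^ 2 * (8 * hq q (gs g w l) (w l) x) := by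
  have h1 := uB_sq hg hw ht q hl j
  have h2 := (sg_le hg hw hl x).trans ht
  rw [mul_pow] at h1
  nlinarith [sq_nonneg (gq (BB q (gs g w l) (w l)) (nv (gs g w j) (w j)) (nv (gs g w j) (w j)) x)]

theorem uh_sq (hp : ∀ j x, 0 < w j x) (q0 : 0 ≤ q) (q1 : q ≤ 1) (hl : l < m) (j : ℕ) :
    (uu (gs g w l) (w l) x * gq (hess (gs g w l) (w l))
      (nv (gs g w j) (w j)) (nv (gs g w j) (w j)) x) ^ 2 ≤ (1 - uu (gs g w j) (w j) x ^ 2) ^ 2 *
        (8 * hq q (gs g w l) (w l) x + 32 * yy (gs g w l) (w l) x ^ 2) := by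
  have h1 := uB_sq hg hw ht q hl j
  have h2 := dn_w_sq hg hw ht hl j
  have h3 := sg_div (met_gs hg hw l) (hp l x) q0 q1
  have h4 := uu_pos (met_gs hg hw l) (w l) x
  have h5 := uu_le (met_gs hg hw l) (w l) x
  have h6 := div_nonneg q0 (hp l x).le
  have s0 := sg_nn hg hw j x
  rw [gq_hess q, ev_df_nv (met_gs hg hw j), mul_add]
  generalize uu (gs g w l) (w l) x * gq _ _ _ x = a at *
  generalize 1 - uu (gs g w j) (w j) x ^ 2 = s at *
  generalize dn (gs g w j) (w j) (w l) x = d at *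
  generalize q / w l x = t at *
  generalize uu (gs g w l) (w l) x = u at *
  have k1 : u * (t * (d * d)) ≤ 2 * s * (t * (1 - u ^ 2)) := by
    refine (mul_le_of_le_one_left (mul_nonneg h6 (mul_self_nonneg d)) h5).trans ?_
    nlinarith [mul_le_mul_of_nonneg_left h2 h6]
  have k2 := pow_le_pow_left₀ (mul_nonneg h4.le (mul_nonneg h6 (mul_self_nonneg d))) k1 2
  have k3 := mul_le_mul_of_nonneg_left h3 (sq_nonneg (2 * s))
  rw [← mul_pow] at k3
  nlinarith [sq_nonneg (a - u * (t * (d * d)))]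

/-- the change of the Hessian along the sweep -/
theorem chr_sq (hp : ∀ j x, 0 < w j x) (q0 : 0 ≤ q) (q1 : q ≤ 1) {i : ℕ} (hi : i < m)
    (hj : j < m) : (gq (hess (gs g w j) (w i)) (nv (gs g w j) (w j)) (nv (gs g w j) (w j)) x -
      gq (hess (gs g w i) (w i)) (nv (gs g w j) (w j)) (nv (gs g w j) (w j)) x) ^ 2 ≤
      (1 - uu (gs g w i) (w i) x ^ 2) * ((1 - uu (gs g w j) (w j) x ^ 2) ^ 2 * (2 * th g w m x *
        (8 * ∑ l ∈ range m, hq q (gs g w l) (w l) x +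
          32 * ∑ l ∈ range m, yy (gs g w l) (w l) x ^ 2))) := by
  have key : ∀ a b, b ≤ m → (∑ l ∈ Finset.Ico a b, uu (gs g w l) (w l) x *
      dn (gs g w l) (w l) (w i) x * gq (hess (gs g w l) (w l)) (nv (gs g w j) (w j))
        (nv (gs g w j) (w j)) x) ^ 2 ≤ (1 - uu (gs g w i) (w i) x ^ 2) *
      ((1 - uu (gs g w j) (w j) x ^ 2) ^ 2 * (2 * th g w m x *
        (8 * ∑ l ∈ range m, hq q (gs g w l) (w l) x +
          32 * ∑ l ∈ range m, yy (gs g w l) (w l) x ^ 2))) := fun a b hb => by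
    have sub : Finset.Ico a b ⊆ range m := fun l hl =>
      Finset.mem_range.2 ((Finset.mem_Ico.1 hl).2.trans_le hb)
    have p1 : ∀ l, 0 ≤ 2 * (1 - uu (gs g w l) (w l) x ^ 2) * (1 - uu (gs g w i) (w i) x ^ 2) :=
      fun l => mul_nonneg (mul_nonneg two_pos.le (sg_nn hg hw l x)) (sg_nn hg hw i x)
    have p2 : ∀ l, 0 ≤ (1 - uu (gs g w j) (w j) x ^ 2) ^ 2 *
        (8 * hq q (gs g w l) (w l) x + 32 * yy (gs g w l) (w l) x ^ 2) := fun l => by
      have := hq_nn (met_gs hg hw l) (hw l) q x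
      positivity
    refine (Finset.sum_sq_le_sum_mul_sum_of_sq_le_mul _ (fun l _ => p1 l) (fun l _ => p2 l)
      fun l hl => ?_).trans ((mul_le_mul (Finset.sum_le_sum_of_subset_of_nonneg sub fun l _ _ => p1 l)
        (Finset.sum_le_sum_of_subset_of_nonneg sub fun l _ _ => p2 l)
        (Finset.sum_nonneg fun l _ => p2 l) (Finset.sum_nonneg fun l _ => p1 l)).trans_eq ?_)
    · rw [mul_right_comm, mul_comm, mul_pow]
      exact mul_le_mul (dn_w_sq hg hw ht hi l)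
        (uh_sq hg hw ht hp q0 q1 (Finset.mem_range.1 (sub hl)) j) (sq_nonneg _) (p1 l)
    · rw [← Finset.sum_mul, ← Finset.mul_sum, ← Finset.mul_sum, Finset.sum_add_distrib,
        ← Finset.mul_sum, ← Finset.mul_sum, ← th]
      ring
  rcases le_total i j with h | h
  · rw [gq_hess_gs hg hw h, sub_sub_cancel_left, neg_sq]; exact key _ _ hj.le
  · rw [gq_hess_gs hg hw h, sub_sub_cancel]; exact key _ _ hi.le

/-- **the second order part** -/
theorem s2_ge (hp : ∀ j x, 0 < w j x) (q0 : 0 ≤ q) (q1 : q ≤ 1) (hn : 1 ≤ n) (hr : 0 < r₀) :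
    ∃ A B D : ℝ, th g w m x ^ 2 / (4 * n * rr r₀ w m x) + A + B + D -
        2 * (th g w m x * ip g (ff r₀ w m) (ff r₀ w m) x) ≤
        ∑ j ∈ range m, dn (gs g w j) (w j) (dn (gs g w j) (w j) (ff r₀ w m)) x ∧
      rr r₀ w m x * A ^ 2 ≤ 8 * th g w m x ^ 2 * ∑ j ∈ range m, hq q (gs g w j) (w j) x ∧
      rr r₀ w m x * B ^ 2 ≤ 8 * th g w m x ^ 4 * (4 * ∑ j ∈ range m, hq q (gs g w j) (w j) x +
        8 * ∑ j ∈ range m, yy (gs g w j) (w j) x ^ 2) ∧
      D ^ 2 ≤ th g w m x * ip g (ff r₀ w m) (ff r₀ w m) x *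
        (4 * ∑ j ∈ range m, hq q (gs g w j) (w j) x +
          8 * ∑ j ∈ range m, yy (gs g w j) (w j) x ^ 2) := by
  have r0 := rr_pos hr w m x
  have r1 : ∑ i ∈ range m, w i x ^ 2 ≤ rr r₀ w m x := le_add_of_nonneg_left hr.le
  have G := met_gs hg hw
  have Q0 : 0 ≤ ∑ j ∈ range m, hq q (gs g w j) (w j) x :=
    Finset.sum_nonneg fun j _ => hq_nn (G j) (hw j) q x
  have Y0 : 0 ≤ ∑ j ∈ range m, yy (gs g w j) (w j) x ^ 2 := Finset.sum_nonneg fun j _ => sq_nonneg _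
  have L0 := hg.ip_nonneg (ff r₀ w m) x
  have t0 := th_nn hg hw m x
  have aux : ∀ (a : ℕ → ℕ → ℝ) (K : ℝ), 0 ≤ K → (∀ j < m, ∑ i ∈ range m, a i j ^ 2 ≤
      (1 - uu (gs g w j) (w j) x ^ 2) ^ 2 * K) → rr r₀ w m x * ((rr r₀ w m x)⁻¹ *
        ∑ j ∈ range m, ∑ i ∈ range m, w i x * a i j) ^ 2 ≤ th g w m x ^ 2 * K := by
    intro a K K0 h
    have := sum_sq_le' (range m) (a := fun j => ∑ i ∈ range m, w i x * a i j)
      (K := rr r₀ w m x * K) (fun j _ => sg_nn hg hw j x) (by positivity) fun j hj =>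
        (Finset.sum_mul_sq_le_sq_mul_sq _ _ _).trans ((mul_le_mul r1 (h j (Finset.mem_range.1 hj))
          (Finset.sum_nonneg fun _ _ => sq_nonneg _) r0.le).trans_eq (by ring))
    rw [← th] at this
    rw [mul_pow, inv_pow, ← mul_assoc, show rr r₀ w m x * (rr r₀ w m x ^ 2)⁻¹ = (rr r₀ w m x)⁻¹ by
      field_simp, inv_mul_le_iff₀ r0]
    exact this.trans_eq (by ring)
  refine ⟨(rr r₀ w m x)⁻¹ * ∑ j ∈ range m, ∑ i ∈ range m, w i x * gq (BB q (gs g w i) (w i))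
      (nv (gs g w j) (w j)) (nv (gs g w j) (w j)) x,
    (rr r₀ w m x)⁻¹ * ∑ j ∈ range m, ∑ i ∈ range m, w i x *
      (gq (hess (gs g w j) (w i)) (nv (gs g w j) (w j)) (nv (gs g w j) (w j)) x -
        gq (hess (gs g w i) (w i)) (nv (gs g w j) (w j)) (nv (gs g w j) (w j)) x),
    ∑ j ∈ range m, uu (gs g w j) (w j) x * iv (gb (gs g w j) 1 (w j))
      (fl (hess (gs g w j) (w j)) (nv (gs g w j) (w j))) (df (ff r₀ w m)) x, ?_, ?_, ?_, ?_⟩
  · have h1 : th g w m x ^ 2 / (4 * n * rr r₀ w m x) ≤ (rr r₀ w m x)⁻¹ *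
        ∑ j ∈ range m, ∑ i ∈ range m, dn (gs g w j) (w j) (w i) x ^ 2 := by
      have : (0 : ℝ) < n := by exact_mod_cast hn
      rw [div_le_iff₀ (by positivity)]
      exact (tr_ge hg hw ht).trans_eq (by field_simp)
    have h2 : ∑ j ∈ range m, dn (gs g w j) (w j) (ff r₀ w m) x ^ 2 ≤
        th g w m x * ip g (ff r₀ w m) (ff r₀ w m) x := by
      rw [th, Finset.sum_mul]; exact Finset.sum_le_sum fun j _ => dn_sq hg hw j _ x
    refine le_trans (sub_le_sub (add_le_add_left (add_le_add_left (add_le_add_left h1 _) _) _)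
      (mul_le_mul_of_nonneg_left h2 two_pos.le)) ?_
    simp only [Finset.mul_sum (s := range m) (a := (rr r₀ w m x)⁻¹) (f := fun j => ∑ i ∈ _, _),
      Finset.mul_sum (a := (2 : ℝ)), ← Finset.sum_add_distrib, ← Finset.sum_sub_distrib]
    refine Finset.sum_le_sum fun j _ => ?_
    rw [dn_dn (G j) (hw j) ((sm_ff hw hr m).c2 x), gq_hess_ff hw hr, ev_df_nv (G j), ← mul_add,
      ← mul_add, ← Finset.sum_add_distrib, ← Finset.sum_add_distrib]
    have := mul_le_mul_of_nonneg_left (Finset.sum_le_sum (s := range m)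
      (f := fun i => dn (gs g w j) (w j) (w i) x ^ 2 + w i x * gq (BB q (gs g w i) (w i))
        (nv (gs g w j) (w j)) (nv (gs g w j) (w j)) x + w i x *
        (gq (hess (gs g w j) (w i)) (nv (gs g w j) (w j)) (nv (gs g w j) (w j)) x -
          gq (hess (gs g w i) (w i)) (nv (gs g w j) (w j)) (nv (gs g w j) (w j)) x))
      (g := fun i => w i x * gq (hess (gs g w j) (w i)) (nv (gs g w j) (w j)) (nv (gs g w j) (w j)) x
        + ev (df (w i)) (nv (gs g w j) (w j)) x ^ 2) fun i _ => by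
        rw [gq_hess q (gs g w i), ev_df_nv (G j)]
        nlinarith [mul_nonneg (hp i x).le (mul_nonneg (div_nonneg q0 (hp i x).le)
          (mul_self_nonneg (dn (gs g w j) (w j) (w i) x)))]) (inv_nonneg.2 r0.le)
    linarith
  · refine (aux _ (8 * ∑ j ∈ range m, hq q (gs g w j) (w j) x) (by positivity) fun j _ => ?_).trans_eq
      (by ring)
    rw [Finset.mul_sum, Finset.mul_sum]
    exact Finset.sum_le_sum fun i hi => B_sq hg hw ht q (Finset.mem_range.1 hi) j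
  · refine (aux _ (th g w m x * (2 * th g w m x * (8 * ∑ l ∈ range m, hq q (gs g w l) (w l) x +
      32 * ∑ l ∈ range m, yy (gs g w l) (w l) x ^ 2))) (by positivity) fun j hj => ?_).trans ?_
    · refine (Finset.sum_le_sum fun i hi =>
        chr_sq hg hw ht hp q0 q1 (Finset.mem_range.1 hi) hj).trans_eq ?_
      rw [← Finset.sum_mul, ← th]; ring
    · nlinarith [mul_nonneg (pow_nonneg t0 4) Q0]
  · refine (Finset.sum_sq_le_sum_mul_sum_of_sq_le_mul _ (fun j _ => sg_nn hg hw j x)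
      (g := fun j => ip g (ff r₀ w m) (ff r₀ w m) x * (2 * hq q (gs g w j) (w j) x +
        8 * yy (gs g w j) (w j) x ^ 2)) (fun j _ => by
        have := hq_nn (G j) (hw j) q x
        positivity) fun j _ => (acc_sq (G j) (hw j) (hp j x) q0 q1 _).trans
          (mul_le_mul_of_nonneg_left (mul_le_mul_of_nonneg_right (iv_le hg hw j.zero_le (df _) x) (by
            have := hq_nn (G j) (hw j) q x
            positivity)) (sg_nn hg hw j x))).trans ?_
    rw [← th, ← Finset.mul_sum, Finset.sum_add_distrib, ← Finset.mul_sum, ← Finset.mul_sum]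
    nlinarith [mul_nonneg (mul_nonneg t0 L0) Q0]

end Vale.Agent.P210D
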