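import Vale.Agent.P210D.Dy

/-!
# P210D: the first order terms of the drift move and the final real inequality
-/

open Filter Topology Set Finset
open scoped ContDiff
open Vale.Agent.P366M Vale.Agent.P366M.Gr Vale.Agent.P366M.Y.C Vale.Agent.P366M.Y.C.GbH
open Vale.Agent.P210G Vale.Agent.P210T Vale.Agent.P210R

noncomputable section

namespace Vale.Agent.P210D

variable {n : ℕ} {M : Type} [Mf0 n M]

section one

variable {g : Fld n M} {w : M → ℝ} {x : M} {q : ℝ}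

theorem sm_uu (hg : Met g) (hw : Smooth w) : Smooth (uu g w) :=
  CD.inv (sm_w hg hw) fun x => (w_pos hg w x).ne'

theorem ev_ww (hg : Met g) (hw : Smooth w) (Y : Fin n → M → ℝ) (x : M) :
    ev (df (ww g 1 w)) Y x = gq (hess g w) Y (nv g w) x := by
  rw [gq_eq_ev]; simp only [ev, df, pd_ww hg hw, fl]

theorem ev_uu (hg : Met g) (hw : Smooth w) (Y : Fin n → M → ℝ) (x : M) :
    ev (df (uu g w)) Y x = -(uu g w x ^ 2 * gq (hess g w) Y (nv g w) x) := by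
  rw [← ev_ww hg hw, ev_lin (s := -uu g w x ^ 2) (t := 0) (b := df (ww g 1 w)) (c := df w)
    fun i => by
      rw [df, df, show uu g w = fun y => (ww g 1 w y)⁻¹ from rfl,
        pd_inv ((sm_w hg hw).diff x) (w_pos hg w x).ne']
      ring]
  ring

theorem sg_div' (hg : Met g) (q0 : 0 ≤ q) (q1 : q ≤ 1) :
    (q / w x * (1 - uu g w x ^ 2)) ^ 2 ≤ 4 * P210R.yy g w x ^ 2 := by
  have u0 := uu_pos hg w x
  have u1 := uu_le hg w x
  have e : q / w x * (1 - uu g w x ^ 2) = q * (1 + uu g w x) * P210R.yy g w x := by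
    rw [P210R.yy]; ring
  have : (q * (1 + uu g w x)) ^ 2 ≤ 2 ^ 2 := pow_le_pow_left₀ (by positivity) (by nlinarith) 2
  rw [e, mul_pow]
  nlinarith [sq_nonneg (P210R.yy g w x)]

/-- the Hessian on a vector and the normal -/
theorem hess_ZN (hg : Met g) (hw : Smooth w) (q0 : 0 ≤ q) (q1 : q ≤ 1) (Z : Fin n → M → ℝ) :
    (uu g w x * gq (hess g w) Z (nv g w) x) ^ 2 ≤
      (1 - uu g w x ^ 2) * (gq (gb g 1 w) Z Z x * (2 * hq q g w x + 8 * P210R.yy g w x ^ 2)) := by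
  have hg' := met_g hg hw
  have h1 := BB_sq_le hg hw q Z (nv g w) x
  have h2 := ev_cs hg' (df w) Z x
  rw [iv_df, ip_g_self hg] at h2
  have h3 := mul_le_mul h2 (sg_div' (w := w) (x := x) hg q0 q1) (sq_nonneg _)
    ((sq_nonneg _).trans h2)
  have e : uu g w x * gq (hess g w) Z (nv g w) x = uu g w x * gq (BB q g w) Z (nv g w) x +
      ev (df w) Z x * (q / w x * (1 - uu g w x ^ 2)) := by
    rw [gq_hess q, ev_df_nv hg, ← uu_dn hg]; ring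
  rw [gq_nv' hg] at h1
  rw [e]
  nlinarith [sq_nonneg (uu g w x * gq (BB q g w) Z (nv g w) x -
    ev (df w) Z x * (q / w x * (1 - uu g w x ^ 2)))]

theorem gq_sum_le (hg : Met g) (s : Finset ℕ) (t : ℕ → ℝ) (X : ℕ → Fin n → M → ℝ)
    {Y : Fin n → M → ℝ} (h : ∀ i, Y i x = ∑ j ∈ s, t j * X j i x) :
    gq g Y Y x ≤ (∑ j ∈ s, t j ^ 2) * ∑ j ∈ s, gq g (X j) (X j) x := by
  have h1 : gq g Y Y x = ∑ j ∈ s, t j * ev (fl g Y) (X j) x := by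
    rw [gq_eq_ev]
    simp only [ev, Finset.mul_sum]
    rw [Finset.sum_comm]
    refine Finset.sum_congr rfl fun i _ => ?_
    rw [h, Finset.mul_sum]
    exact Finset.sum_congr rfl fun _ _ => by ring
  have h2 : (∑ j ∈ s, t j * ev (fl g Y) (X j) x) ^ 2 ≤
      (∑ j ∈ s, t j ^ 2) * ∑ j ∈ s, gq g Y Y x * gq g (X j) (X j) x :=
    sum_sq_le_sum_mul_sum_of_sq_le_mul s (fun _ _ => sq_nonneg _)
      (fun j _ => mul_nonneg (gq_nonneg hg _ x) (gq_nonneg hg _ x)) fun j _ => by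
        rw [mul_pow, ← iv_fl hg Y Y]
        exact mul_le_mul_of_nonneg_left (ev_cs hg _ _ x) (sq_nonneg _)
  rw [← h1, ← Finset.mul_sum, mul_left_comm, sq] at h2
  rcases (gq_nonneg hg Y x).eq_or_lt with h0 | h0
  · rw [← h0]
    exact mul_nonneg (sum_nonneg fun _ _ => sq_nonneg _) (sum_nonneg fun _ _ => gq_nonneg hg _ x)
  · exact le_of_mul_le_mul_left h2 h0

end one

theorem two_ge {t a b k : ℝ} (ha : 0 ≤ a) (hb : 0 ≤ b) (h : t ^ 2 ≤ a * b) (k0 : 0 ≤ k)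
    (k1 : k ≤ 1) : -(k * a + b) ≤ 2 * (k * t) := by
  have h1 : (2 * t) ^ 2 ≤ (a + b) ^ 2 := by nlinarith [sq_nonneg (a - b)]
  have h2 := mul_le_mul_of_nonneg_left (abs_le_of_sq_le_sq' h1 (by positivity)).1 k0
  nlinarith [mul_le_mul_of_nonneg_right k1 hb]

theorem alg_c {C D n c α : ℝ} (hC : C = 2000 + 524288 * D ^ 2) (hn : 1 ≤ n) (c0 : 0 < c)
    (c1 : C * n * c ≤ 1) (α0 : 0 < α) (α1 : C * α ≤ 1) :
    2000 ≤ C ∧ n * c ≤ 1 / 2000 ∧ c ≤ 1 / 2000 ∧ α ≤ 1 / 2000 := by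
  have C0 : 2000 ≤ C := by rw [hC]; nlinarith [sq_nonneg D]
  have cn : n * c ≤ 1 / 2000 := by nlinarith [mul_pos (one_pos.trans_le hn) c0]
  exact ⟨C0, cn, by nlinarith, by nlinarith⟩

theorem alg_r {r n T c A K : ℝ} (r0 : 0 < r) (h : r * A ^ 2 ≤ 8 * (r * (4 * n * T)) * K) :
    (c * A) ^ 2 ≤ c * T / 2 * (64 * (n * c) * K) := by
  have := le_of_mul_le_mul_left (a := r) (b := A ^ 2) (c := 32 * n * T * K) (by linarith) r0
  linarith [mul_le_mul_of_nonneg_left this (sq_nonneg c)]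

theorem alg_u {c l U A a b : ℝ} (e : c ^ 2 = l * U) (h0 : 0 ≤ l * U) (h : A ^ 2 ≤ a * b) :
    (c * A) ^ 2 ≤ l * a * (U * b) := by
  rw [mul_pow, e]; linarith [mul_le_mul_of_nonneg_left h h0]

theorem alg_5 {Θ α G P W κ' D A : ℝ} (α0 : 0 < α) (Θ0 : 0 ≤ Θ) (Θ1 : Θ ≤ 16 * α) (P0 : 0 ≤ P)
    (W0 : 0 ≤ W) (hG : G ≤ P * (2 * Θ)) (k2 : κ' ^ 2 ≤ D ^ 2) (h5 : A ^ 2 ≤ Θ * (G * W)) :
    (κ' * A / α) ^ 2 ≤ W / 32 * (16384 * (D ^ 2 * P)) := by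
  have p0 : Θ * G ≤ 512 * α ^ 2 * P := by
    linarith [mul_le_mul_of_nonneg_left hG Θ0, mul_le_mul_of_nonneg_left
      (pow_le_pow_left₀ Θ0 Θ1 2) P0]
  have p1 : Θ * (G * W) ≤ 512 * α ^ 2 * (P * W) := by
    linarith [mul_le_mul_of_nonneg_right p0 W0]
  rw [div_pow, div_le_iff₀ (by positivity), mul_pow]
  linarith [mul_le_mul k2 (h5.trans p1) (sq_nonneg _) (sq_nonneg _)]

theorem alg_6 {Θ α G L F a c I A : ℝ} (α0 : 0 < α) (Θ0 : 0 ≤ Θ) (a2 : Θ ≤ 2 * a) (L0 : 0 ≤ L)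
    (L1 : L ≤ 2 * F) (I0 : 0 ≤ I) (hG : G ≤ Θ * L * (2 * Θ)) (h6 : A ^ 2 ≤ I * G) :
    (c * A) ^ 2 ≤ 4 * (c * (α * F)) * (4 * (c * (a ^ 2 / α) * I)) := by
  have p1 : G ≤ 16 * a ^ 2 * F := by
    linarith [mul_le_mul (pow_le_pow_left₀ Θ0 a2 2) L1 L0 (sq_nonneg _)]
  have p2 : 4 * (c * (α * F)) * (4 * (c * (a ^ 2 / α) * I)) = c ^ 2 * (I * (16 * a ^ 2 * F)) := by
    field_simp; ring
  rw [mul_pow, p2]
  exact mul_le_mul_of_nonneg_left (h6.trans (mul_le_mul_of_nonneg_left p1 I0)) (sq_nonneg _)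

theorem alg_x {c k G P Θ : ℝ} (c0 : 0 < c) (c2 : c ≤ 1 / 2000) (k0 : 0 ≤ k) (k1 : k ≤ 1)
    (G0 : 0 ≤ G) (P0 : 0 ≤ P) (Θ1 : Θ ≤ 1 / 2) (hG : G ≤ P * (2 * Θ)) : (c * k) ^ 2 * G ≤ c * P := by
  have p1 : (c * k) ^ 2 ≤ c := by
    have := pow_le_pow_left₀ (mul_nonneg c0.le k0) (mul_le_of_le_one_right c0.le k1) 2
    nlinarith
  exact mul_le_mul p1 (by nlinarith) G0 c0.le

theorem alg_w {t Θ α l W : ℝ} (cn : t ≤ 1 / 2000) (Θ0 : 0 ≤ Θ) (Θ1 : Θ ≤ 16 * α)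
    (α2 : α ≤ 1 / 2000) (l0 : α ≤ l) (W0 : 0 ≤ W) : 64 * t * (Θ ^ 2 * W) ≤ l * (W / 32) := by
  have p1 : Θ ^ 2 ≤ 256 / 2000 * l := by nlinarith [pow_le_pow_left₀ Θ0 Θ1 2]
  have p2 := mul_le_mul cn p1 (sq_nonneg _) (by norm_num)
  have p3 : 0 ≤ l * W := mul_nonneg (by linarith) W0
  linarith [mul_le_mul_of_nonneg_right p2 W0]

/-- the final real inequality -/
theorem fin_alg {C D n c α l r Θ a L F I Q Y H κ κ' χ A B E A₁ A₅ A₆ S G : ℝ}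
    (hC : C = 2000 + 524288 * D ^ 2) (hn : 1 ≤ n) (c0 : 0 < c) (c1 : C * n * c ≤ 1) (α0 : 0 < α)
    (α1 : C * α ≤ 1) (l0 : α ≤ l) (l1 : l ≤ 1) (r0 : 0 < r) (a0 : 0 ≤ a) (a1 : a ≤ Θ)
    (a2 : Θ ≤ 2 * a) (a3 : a ≤ 8 * α) (L0 : 0 ≤ L) (L1 : L ≤ 2 * F) (I0 : 0 ≤ I) (Q0 : 0 ≤ Q)
    (Y0 : 0 ≤ Y) (H0 : 0 ≤ H) (k0 : 0 ≤ κ) (k1 : κ ≤ 1) (k2 : κ' ^ 2 ≤ D ^ 2) (χ0 : 0 ≤ χ)
    (χ1 : χ ≤ 1) (hS : Θ ^ 2 / (4 * n * r) + A + B + E - 2 * (Θ * L) ≤ S)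
    (hA : r * A ^ 2 ≤ 8 * Θ ^ 2 * Q) (hB : r * B ^ 2 ≤ 8 * Θ ^ 4 * (4 * Q + 8 * Y))
    (hE : E ^ 2 ≤ Θ * L * (4 * Q + 8 * Y)) (h1 : A₁ ^ 2 ≤ Θ * L * H) (G0 : 0 ≤ G)
    (hG : G ≤ Θ * L * (2 * Θ)) (h5 : A₅ ^ 2 ≤ Θ * (G * (4 * Q + 8 * Y))) (h6 : A₆ ^ 2 ≤ I * G) :
    κ * χ * c * a ^ 2 / (4 * n * r) - Q / 2 - l * Y - l * H - C * (c + c ^ 2 / l) * α * F -
      C * c * (a ^ 2 / α) * I ≤
    2 * (c * κ * χ * (A₁ + S) + c * (κ' * χ * A₅ / α + κ * A₆)) - (c * κ * χ) ^ 2 * G := by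
  obtain ⟨C0, cn, c2, α2⟩ := alg_c hC hn c0 c1 α0 α1
  have l2 : 0 < l := α0.trans_le l0
  have n0 : 0 < n := one_pos.trans_le hn
  have Θ0 : 0 ≤ Θ := a0.trans a1
  have Θ1 : Θ ≤ 16 * α := by linarith
  have F0 : 0 ≤ F := by linarith
  have hk0 : 0 ≤ κ * χ := mul_nonneg k0 χ0
  have hk1 : κ * χ ≤ 1 := mul_le_one₀ k1 χ0 χ1
  have P1 := mul_le_mul Θ1 L1 L0 (by positivity)
  have t8 := two_ge (by positivity) (by positivity) (alg_6 (c := c) α0 Θ0 a2 L0 L1 I0 hG h6) k0 k1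
  have u1 : κ * χ * c * a ^ 2 / (4 * n * r) ≤ κ * χ * c * (Θ ^ 2 / (4 * n * r)) := by
    rw [mul_div_assoc]
    gcongr
  have u5 : l * (4 * Q + 8 * Y) ≤ 4 * Q + 8 * (l * Y) := by
    linarith [mul_le_of_le_one_left Q0 l1]
  have P0 : 0 ≤ Θ * L := by positivity
  have W0 : 0 ≤ 4 * Q + 8 * Y := by positivity
  have T0 : 0 ≤ Θ ^ 2 / (4 * n * r) := by positivity
  have U0 : 0 ≤ c ^ 2 / l := by positivity
  have eT : Θ ^ 2 = r * (4 * n * (Θ ^ 2 / (4 * n * r))) := by field_simp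
  have eU : c ^ 2 = l * (c ^ 2 / l) := by field_simp
  generalize Θ ^ 2 / (4 * n * r) = T at *
  generalize 4 * Q + 8 * Y = W at *
  generalize Θ * L = P at *
  generalize c ^ 2 / l = U at *
  have lU : 0 ≤ l * U := by positivity
  have t2 := two_ge (by positivity) (by positivity) (alg_r (c := c) r0 (eT ▸ hA)) hk0 hk1
  have t3 := two_ge (by positivity) (by positivity) (alg_r (n := n) (T := T) (c := c)
    (K := Θ ^ 2 * W) r0 (hB.trans_eq (by rw [← eT]; ring))) hk0 hk1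
  have t4 := two_ge (by positivity) (by positivity) (alg_u eU lU (mul_comm P H ▸ h1)) hk0 hk1
  have t5 := two_ge (by positivity) (by positivity) (alg_u (a := W / 32) (b := 32 * P) eU lU
    (hE.trans_eq (by ring))) hk0 hk1
  have t7 := two_ge (by positivity) (by positivity)
    (alg_u eU lU (alg_5 α0 Θ0 Θ1 P0 W0 hG k2 h5)) χ0 χ1
  have t1 := mul_le_mul_of_nonneg_left hS (mul_nonneg hk0 c0.le)
  have u2 := alg_x c0 c2 hk0 hk1 G0 P0 (by linarith) hG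
  have u3 := mul_le_mul_of_nonneg_right cn Q0
  have u4 := alg_w cn Θ0 Θ1 α2 l0 W0
  have u6 : κ * χ * (l * H) ≤ l * H := mul_le_of_le_one_left (by positivity) hk1
  have u7 : κ * χ * (l * (W / 32)) ≤ l * (W / 32) := mul_le_of_le_one_left (by positivity) hk1
  have u8 : χ * (l * (W / 32)) ≤ l * (W / 32) := mul_le_of_le_one_left (by positivity) χ1
  have v8 : 0 ≤ c * (α * F) := by positivity
  have v9 : 0 ≤ U * (α * F) := by positivity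
  have v10 : 0 ≤ c * (a ^ 2 / α) * I := by positivity
  have u9 := mul_le_of_le_one_left v8 k1
  have v1 : κ * χ * (c * P) ≤ c * P := mul_le_of_le_one_left (by positivity) hk1
  have v2 := mul_le_mul_of_nonneg_left P1 c0.le
  have v3 := mul_le_mul_of_nonneg_left P1 U0
  have v4 := mul_le_mul_of_nonneg_left v3 (sq_nonneg D)
  have v5 := mul_le_mul_of_nonneg_right C0 v8
  have v6 := mul_le_mul_of_nonneg_right C0 v10
  have v7 : C * (U * (α * F)) = 2000 * (U * (α * F)) + 524288 * (D ^ 2 * (U * (α * F))) := by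
    rw [hC]; ring
  have v11 : 0 ≤ l * Y := by positivity
  have e : κ' * χ * A₅ / α = χ * (κ' * A₅ / α) := by ring
  rw [e]
  linarith

end Vale.Agent.P210D
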