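import Vale.Agent.P210D.Tr

/-!
# P210D: the metrics of a sweep (helper41)
-/

set_option linter.all false

open Filter Topology Set
open scoped ContDiff

noncomputable section

namespace Vale.Agent.P210D

open Vale.Agent.P366M Vale.Agent.P366M.Gr Vale.Agent.P366M.Y.C Vale.Agent.P366M.Y.C.GbH
open Vale.Agent.P210G Vale.Agent.P210T Vale.Agent.P210R Finset

variable {n : ℕ} {M : Type} [Mf0 n M] {g : Fld n M} {w : ℕ → M → ℝ} {x : M} {j k l m : ℕ}

/-- `Θ = ∑ σ²` -/
def th (g : Fld n M) (w : ℕ → M → ℝ) (m : ℕ) (x : M) : ℝ :=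
  ∑ j ∈ range m, (1 - uu (gs g w j) (w j) x ^ 2)

variable (hg : Met g) (hw : ∀ j, Smooth (w j))
include hg hw

theorem met_gs : ∀ j, Met (gs g w j)
  | 0 => hg
  | j + 1 => met_g (met_gs j) (hw j)

theorem sg_nn (j : ℕ) (x : M) : 0 ≤ 1 - uu (gs g w j) (w j) x ^ 2 := by
  have := uu_pos (met_gs hg hw j) (w j) x
  have := uu_le (met_gs hg hw j) (w j) x
  nlinarith

theorem th_nn (m : ℕ) (x : M) : 0 ≤ th g w m x := Finset.sum_nonneg fun j _ => sg_nn hg hw j x

theorem th_mono (h : k ≤ m) (x : M) : th g w k x ≤ th g w m x :=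
  Finset.sum_le_sum_of_subset_of_nonneg (Finset.range_mono h) fun j _ _ => sg_nn hg hw j x

theorem sg_le (h : j < m) (x : M) : 1 - uu (gs g w j) (w j) x ^ 2 ≤ th g w m x :=
  Finset.single_le_sum (f := fun j => 1 - uu (gs g w j) (w j) x ^ 2)
    (fun j _ => sg_nn hg hw j x) (Finset.mem_range.2 h)

theorem aa_nn (m : ℕ) (x : M) : 0 ≤ aa g w m x :=
  Finset.sum_nonneg fun j _ => sub_nonneg.2 (uu_le (met_gs hg hw j) (w j) x)

theorem aa_le_th (m : ℕ) (x : M) : aa g w m x ≤ th g w m x := Finset.sum_le_sum fun j _ => by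
  have := uu_pos (met_gs hg hw j) (w j) x
  have := uu_le (met_gs hg hw j) (w j) x
  nlinarith

theorem th_le_aa (m : ℕ) (x : M) : th g w m x ≤ 2 * aa g w m x := by
  rw [aa, Finset.mul_sum]
  exact Finset.sum_le_sum fun j _ => by nlinarith [sq_nonneg (1 - uu (gs g w j) (w j) x)]

theorem iv_gs (m : ℕ) (a b : Fin n → M → ℝ) (x : M) : iv (gs g w m) a b x = iv g a b x -
    ∑ j ∈ range m, ev a (nv (gs g w j) (w j)) x * ev b (nv (gs g w j) (w j)) x := by
  induction m with
  | zero => simp [gs]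
  | succ m ih => rw [gs, iv_g (met_gs hg hw m), ih, Finset.sum_range_succ]; ring

theorem sh_gs (m : ℕ) (a : Fin n → M → ℝ) (i : Fin n) (x : M) : sh (gs g w m) a i x = sh g a i x -
    ∑ j ∈ range m, ev a (nv (gs g w j) (w j)) x * nv (gs g w j) (w j) i x := by
  induction m with
  | zero => simp [gs]
  | succ m ih => rw [gs, sh_g (met_gs hg hw m), ih, Finset.sum_range_succ]; ring

omit hg hw in
theorem gq_gs (m : ℕ) (X : Fin n → M → ℝ) (x : M) :
    gq (gs g w m) X X x = gq g X X x + ∑ j ∈ range m, ev (df (w j)) X x ^ 2 := by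
  induction m with
  | zero => simp [gs]
  | succ m ih => rw [gs, gq_gb, ih, Finset.sum_range_succ]; ring

theorem iv_le (h : j ≤ k) (a : Fin n → M → ℝ) (x : M) :
    iv (gs g w k) a a x ≤ iv (gs g w j) a a x := by
  induction h with
  | refl => exact le_rfl
  | step _ ih => exact (iv_g_le (met_gs hg hw _) _ a x).trans ih

omit hg hw in
theorem gq_le (h : j ≤ k) (X : Fin n → M → ℝ) (x : M) :
    gq (gs g w j) X X x ≤ gq (gs g w k) X X x := by
  induction h with
  | refl => exact le_rfl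
  | step _ ih => exact ih.trans (by rw [gs, gq_gb]; exact le_add_of_nonneg_right (sq_nonneg _))

theorem iv_th (h : th g w k x ≤ 1) (a : Fin n → M → ℝ) :
    (1 - th g w k x) * iv g a a x ≤ iv (gs g w k) a a x := by
  induction k with
  | zero => simp [gs, th]
  | succ k ih =>
    have h1 := ih ((th_mono hg hw k.le_succ x).trans h)
    have h2 := iv_g_ge (met_gs hg hw k) (w k) a x
    have h3 := mul_le_mul_of_nonneg_left h1 (sq_nonneg (uu (gs g w k) (w k) x))
    have h4 := mul_nonneg (mul_nonneg (sg_nn hg hw k x) (th_nn hg hw k x)) (iv_nonneg hg a x)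
    rw [th, Finset.sum_range_succ, ← th, gs]
    nlinarith

theorem gq_th (h : th g w k x ≤ 1) (X : Fin n → M → ℝ) :
    (1 - th g w k x) * gq (gs g w k) X X x ≤ gq g X X x := by
  induction k with
  | zero => simp [gs, th]
  | succ k ih =>
    have h0 := (th_mono hg hw k.le_succ x).trans h
    have h2 := mul_le_mul_of_nonneg_left (gq_g_le (met_gs hg hw k) (w k) X x) (sub_nonneg.2 h0)
    have h4 := mul_nonneg (mul_nonneg (sg_nn hg hw k x) (th_nn hg hw k x))
      (gq_nonneg (met_gs hg hw (k + 1)) X x)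
    rw [th, Finset.sum_range_succ, ← th]
    rw [gs] at h4 ⊢
    nlinarith [ih h0]

theorem iv_two (h : th g w m x ≤ 1 / 2) (hk : k ≤ m) (a : Fin n → M → ℝ) :
    iv g a a x ≤ 2 * iv (gs g w k) a a x := by
  have h0 := (th_mono hg hw hk x).trans h
  nlinarith [iv_th hg hw (h0.trans (by norm_num)) a, iv_nonneg hg a x]

theorem gq_two (h : th g w m x ≤ 1 / 2) (hk : k ≤ m) (X : Fin n → M → ℝ) :
    gq (gs g w k) X X x ≤ 2 * gq g X X x := by
  have h0 := (th_mono hg hw hk x).trans h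
  nlinarith [gq_th hg hw (h0.trans (by norm_num)) X, gq_nonneg (met_gs hg hw k) X x]

/-- all the metrics of the sweep are comparable -/
theorem iv_two' (h : th g w m x ≤ 1 / 2) (hk : k ≤ m) (j : ℕ) (a : Fin n → M → ℝ) :
    iv (gs g w j) a a x ≤ 2 * iv (gs g w k) a a x :=
  (iv_le hg hw j.zero_le a x).trans (iv_two hg hw h hk a)

theorem gq_two' (h : th g w m x ≤ 1 / 2) (hk : k ≤ m) (j : ℕ) (X : Fin n → M → ℝ) :
    gq (gs g w k) X X x ≤ 2 * gq (gs g w j) X X x := by
  have : gq g X X x ≤ _ := gq_le (g := g) (w := w) j.zero_le X x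
  linarith [gq_two hg hw h hk X]

theorem gq_N (h : th g w m x ≤ 1 / 2) (hk : k ≤ m) (j : ℕ) :
    gq (gs g w k) (nv (gs g w j) (w j)) (nv (gs g w j) (w j)) x ≤
      2 * (1 - uu (gs g w j) (w j) x ^ 2) := by
  rw [← gq_nv' (met_gs hg hw j)]; exact gq_two' hg hw h hk j _

theorem gq_N0 (j : ℕ) (x : M) : gq g (nv (gs g w j) (w j)) (nv (gs g w j) (w j)) x ≤
    1 - uu (gs g w j) (w j) x ^ 2 := by
  rw [← gq_nv' (met_gs hg hw j)]; exact gq_le (g := g) (w := w) j.zero_le _ x

theorem ev_N_sq (j : ℕ) (a : Fin n → M → ℝ) (x : M) : ev a (nv (gs g w j) (w j)) x ^ 2 ≤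
    (1 - uu (gs g w j) (w j) x ^ 2) * iv g a a x := by
  have h := ev_cs (met_gs hg hw j) a (nv (gs g w j) (w j)) x
  rw [gq_nv' (met_gs hg hw j), mul_comm] at h
  exact h.trans (mul_le_mul_of_nonneg_left (iv_le hg hw j.zero_le a x) (sg_nn hg hw j x))

theorem dn_sq (j : ℕ) (f : M → ℝ) (x : M) :
    dn (gs g w j) (w j) f x ^ 2 ≤ (1 - uu (gs g w j) (w j) x ^ 2) * ip g f f x := by
  rw [← ev_df_nv (met_gs hg hw j)]; exact ev_N_sq hg hw j (df f) x

theorem ip_w_le (h : th g w m x ≤ 1 / 2) (hl : l < m) (j : ℕ) :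
    ip (gs g w j) (w l) (w l) x ≤ 2 * (1 - uu (gs g w l) (w l) x ^ 2) := by
  rw [← ip_g_self (met_gs hg hw l)]; exact iv_two' hg hw h hl j (df (w l))

theorem dn_w_sq (h : th g w m x ≤ 1 / 2) (hl : l < m) (j : ℕ) :
    dn (gs g w j) (w j) (w l) x ^ 2 ≤
      2 * (1 - uu (gs g w j) (w j) x ^ 2) * (1 - uu (gs g w l) (w l) x ^ 2) := by
  have := mul_le_mul_of_nonneg_left (ip_w_le hg hw h hl 0) (sg_nn hg hw j x)
  have h1 := dn_sq hg hw j (w l) x
  rw [show gs g w 0 = g from rfl] at this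
  linarith

/-- the trace inequality, in terms of the energy for the last metric -/
theorem tr_ge' (m : ℕ) (x : M) : (∑ i ∈ range m, ip (gs g w m) (w i) (w i) x) ^ 2 ≤
    n * ∑ j ∈ range m, ∑ i ∈ range m, dn (gs g w j) (w j) (w i) x ^ 2 := by
  have hG := met_gs hg hw m
  have h := tr_sq_le hG (fun y a b => ∑ i ∈ range m, df (w i) a y * df (w i) b y) x
  have e1 : tr (gs g w m) (fun y a b => ∑ i ∈ range m, df (w i) a y * df (w i) b y) x =
      ∑ i ∈ range m, ip (gs g w m) (w i) (w i) x := by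
    simp only [tr, ip, df, Finset.mul_sum, mul_assoc, Finset.sum_comm (s := range m)]
  have e2 : normSq (gs g w m) (fun y a b => ∑ i ∈ range m, df (w i) a y * df (w i) b y) x =
      ∑ i ∈ range m, ∑ l ∈ range m, ev (df (w l)) (sh (gs g w m) (df (w i))) x ^ 2 := by
    have : ∀ i, ∑ l ∈ range m, ev (df (w l)) (sh (gs g w m) (df (w i))) x ^ 2 =
        gq (fun y a b => ∑ l ∈ range m, df (w l) a y * df (w l) b y) (sh (gs g w m) (df (w i)))
          (sh (gs g w m) (df (w i))) x := fun i => by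
      simp only [sq, ← gq_tens]
      simp only [gq, Finset.sum_mul, Finset.sum_comm (s := range m)]
    simp only [this, ← mx_pair, normSq]
    simp only [Finset.mul_sum (s := range m) (f := fun i => df (w i) _ x * df (w i) _ x),
      Finset.sum_comm (s := range m)]
  rw [e1, e2] at h
  refine h.trans (mul_le_mul_of_nonneg_left ?_ n.cast_nonneg)
  rw [Finset.sum_comm (f := fun j i => dn (gs g w j) (w j) (w i) x ^ 2)]
  refine Finset.sum_le_sum fun i _ => ?_
  have k1 := two_ev_le hg (df (w i)) (sh (gs g w m) (df (w i))) x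
  have k2 := gq_gs (g := g) (w := w) m (sh (gs g w m) (df (w i))) x
  have k3 := iv_gs hg hw m (df (w i)) (df (w i)) x
  have k4 : gq (gs g w m) (sh (gs g w m) (df (w i))) (sh (gs g w m) (df (w i))) x =
      iv (gs g w m) (df (w i)) (df (w i)) x := by
    rw [gq_eq_ev, iv_eq_ev]
    exact Finset.sum_congr rfl fun a _ => congrArg (· * _) (hG.g_up_mul x a fun b => df (w i) b x)
  rw [← iv_eq_ev] at k1
  simp only [ev_df_nv (met_gs hg hw _), ← sq] at k3
  linarith

theorem th_le_en (h : th g w m x ≤ 1 / 2) :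
    th g w m x ≤ 2 * ∑ i ∈ range m, ip (gs g w m) (w i) (w i) x := by
  rw [th, Finset.mul_sum]
  refine Finset.sum_le_sum fun i _ => ?_
  rw [← ip_g_self (met_gs hg hw i)]
  exact iv_two' hg hw h le_rfl (i + 1) (df (w i))

/-- **the trace inequality** -/
theorem tr_ge (h : th g w m x ≤ 1 / 2) : th g w m x ^ 2 ≤
    4 * n * ∑ j ∈ range m, ∑ i ∈ range m, dn (gs g w j) (w j) (w i) x ^ 2 := by
  have := pow_le_pow_left₀ (th_nn hg hw m x) (th_le_en hg hw h) 2
  nlinarith [tr_ge' hg hw m x]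

/-- the Hessians for two metrics of the sweep -/
theorem hess_gs (h : j ≤ k) (f : M → ℝ) (x : M) (a b : Fin n) : hess (gs g w k) f x a b =
    hess (gs g w j) f x a b - ∑ l ∈ Finset.Ico j k,
      uu (gs g w l) (w l) x * dn (gs g w l) (w l) f x * hess (gs g w l) (w l) x a b := by
  induction h with
  | refl => simp
  | step h ih => rw [gs, hess_gb (met_gs hg hw _) (hw _), ih, Finset.sum_Ico_succ_top h]; ring

theorem gq_hess_gs (h : j ≤ k) (f : M → ℝ) (X Y : Fin n → M → ℝ) (x : M) :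
    gq (hess (gs g w k) f) X Y x = gq (hess (gs g w j) f) X Y x - ∑ l ∈ Finset.Ico j k,
      uu (gs g w l) (w l) x * dn (gs g w l) (w l) f x * gq (hess (gs g w l) (w l)) X Y x := by
  simp only [gq, hess_gs hg hw h, sub_mul, Finset.sum_sub_distrib, Finset.sum_mul, Finset.mul_sum,
    Finset.sum_comm (s := Finset.Ico j k), mul_assoc]

end Vale.Agent.P210D
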