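import Vale.Agent.P210R.Defs
import Vale.Agent.P210T.Tail

/-!
# P210D: pointwise facts on graph moves and sweeps (helper41)
-/

set_option linter.all false

open Filter Topology Set
open scoped ContDiff

noncomputable section

namespace Vale.Agent.P210D

section euclid

open Vale.Agent.P366.Stmt Vale.Agent.P366Z Vale.Agent.P366Y.C Vale.Agent.P366P

variable {n : ℕ} {g : Field n} {f : E n → ℝ}

theorem chrE (hg : Met g) (hf : Smooth f) (k i j : Fin n) (x : E n) :
    chr (gb g 1 f) k i j x = chr g k i j x + nv g f k x * (hess g f x i j / ww g 1 f x) := by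
  have hg' := met_g hg hf
  have h0 := (w_pos hg f x).ne'
  have d : ∀ a b c, pd a (fun y => gb g 1 f y b c) x = pd a (fun y => g y b c) x +
      (pd a (pd b f) x * pd c f x + pd b f x * pd a (pd c f) x) := fun a b c => by
    have e : (fun y => gb g 1 f y b c) = fun y => g y b c + pd b f y * pd c f y := by
      funext y; simp [gb]
    rw [e, pd_add ((hg.sm b c).diff x) (((hf.pd b).diff x).fun_mul ((hf.pd c).diff x)),
      pd_mul ((hf.pd b).diff x) ((hf.pd c).diff x)]
  have s : ∀ a b, pd a (pd b f) x = pd b (pd a f) x := fun a b => pd_comm (hf.c2 x) a b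
  have e1 : ∀ l, ∑ k, gb g 1 f x l k * chr (gb g 1 f) k i j x =
      ∑ k, gb g 1 f x l k * (chr g k i j x + nv g f k x * (hess g f x i j / ww g 1 f x)) := by
    intro l
    have e2 : ∑ k, g x l k * nv g f k x = pd l f x / ww g 1 f x := by
      simp only [nv, ← mul_div_assoc, ← Finset.sum_div]
      rw [← hg.g_up_mul x l fun j => pd j f x]; rfl
    have e3 : ∑ k, pd k f x * nv g f k x = (ww g 1 f x ^ 2 - 1) / ww g 1 f x := by
      rw [← dn_eq hg, dn, w_sq hg]; ring
    have e4 : ∑ k, gb g 1 f x l k * (chr g k i j x + nv g f k x * (hess g f x i j / ww g 1 f x)) =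
        ∑ k, g x l k * chr g k i j x + pd l f x * ∑ k, chr g k i j x * pd k f x +
        (∑ k, g x l k * nv g f k x + pd l f x * ∑ k, pd k f x * nv g f k x) *
          (hess g f x i j / ww g 1 f x) := by
      simp only [gb, Finset.mul_sum, Finset.sum_mul, add_mul, ← Finset.sum_add_distrib, Pi.one_apply]
      exact Finset.sum_congr rfl fun _ _ => by ring
    rw [e4, e2, e3, hg'.g_chr, hg.g_chr, d, d, d, s j i, s l i, s l j, hess]
    field_simp
    ring
  rw [← hg'.up_g_mul x k fun k => chr (gb g 1 f) k i j x]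
  simp only [e1]
  exact hg'.up_g_mul x k _

theorem hessE (hg : Met g) (hf : Smooth f) (φ : E n → ℝ) (x : E n) (i j : Fin n) :
    hess (gb g 1 f) φ x i j =
      hess g φ x i j - (ww g 1 f x)⁻¹ * dn g f φ x * hess g f x i j := by
  rw [dn_eq hg]
  conv_lhs => rw [hess]
  conv_rhs => rw [hess]
  simp only [chrE hg hf, add_mul, Finset.sum_add_distrib, Finset.mul_sum, Finset.sum_mul]
  rw [sub_sub]
  congr 2
  exact Finset.sum_congr rfl fun _ _ => by ring

end euclid

open Vale.Agent.P366M Vale.Agent.P366M.Gr Vale.Agent.P366M.Y.C Vale.Agent.P366M.Y.C.GbH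
open Vale.Agent.P210G Vale.Agent.P210T Vale.Agent.P210R Finset

variable {n : ℕ} {M : Type} [Mf0 n M] {g g' T : Fld n M} {a b X Y : Fin n → M → ℝ} {f w : M → ℝ}
  {x : M}

/-! ### one step -/

/-- the Hessian for the metric of the graph -/
theorem hess_gb (hg : Met g) (hw : Smooth w) (f : M → ℝ) (x : M) (i j : Fin n) :
    hess (gb g 1 w) f x i j = hess g f x i j - uu g w x * dn g w f x * hess g w x i j := by
  have h := hessE (hg.loc' x) (hw _ (ch_mem x)) (loc (ch x) f) (pt x) i j
  rw [← rep_g (ch_mem x) g hw, hess_pt, hess_pt, hess_pt, dn_pt] at h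
  rw [h, uu, ← ww_pt]
  rfl

theorem uu_pos (hg : Met g) (w : M → ℝ) (x : M) : 0 < uu g w x := inv_pos.2 (w_pos hg w x)

theorem uu_le (hg : Met g) (w : M → ℝ) (x : M) : uu g w x ≤ 1 :=
  inv_le_one_of_one_le₀ (one_le_ww hg 1 w x)

theorem ev_cs (hg : Met g) (a X : Fin n → M → ℝ) (x : M) :
    ev a X x ^ 2 ≤ iv g a a x * gq g X X x := by
  have := iv_cs hg a (fl g X) x
  rwa [iv_fl hg, iv_eq_ev g a (fl g X), sh_fl hg] at this

theorem gq_nv' (hg : Met g) (w : M → ℝ) (x : M) : gq g (nv g w) (nv g w) x = 1 - uu g w x ^ 2 := by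
  have := (w_pos hg w x).ne'
  rw [gq_nv hg, uu, ← sub_eq_iff_eq_add'.2 (w_sq hg w x)]; field_simp

theorem uu_dn (hg : Met g) (w : M → ℝ) (x : M) : uu g w x * dn g w w x = 1 - uu g w x ^ 2 := by
  have := (w_pos hg w x).ne'
  rw [dn_self hg, uu]; field_simp

theorem ip_g_self (hg : Met g) (w : M → ℝ) (x : M) : ip (gb g 1 w) w w x = 1 - uu g w x ^ 2 := by
  rw [ip_g_u hg, uu, inv_pow]

theorem gq_g_le (hg : Met g) (w : M → ℝ) (X : Fin n → M → ℝ) (x : M) :
    uu g w x ^ 2 * gq (gb g 1 w) X X x ≤ gq g X X x := by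
  have h := ev_cs hg (df w) X x
  have h0 := w_pos hg w x
  rw [iv_df, ← sub_eq_iff_eq_add'.2 (w_sq hg w x)] at h
  rw [gq_gb, uu, inv_pow, inv_mul_le_iff₀ (by positivity)]
  linarith

theorem iv_g_ge (hg : Met g) (w : M → ℝ) (a : Fin n → M → ℝ) (x : M) :
    uu g w x ^ 2 * iv g a a x ≤ iv (gb g 1 w) a a x := by
  have h := ev_cs hg a (nv g w) x
  rw [gq_nv' hg] at h
  rw [iv_g hg]
  nlinarith

/-- the second derivative in the direction of the normal -/
theorem dn_dn (hg : Met g) (hw : Smooth w) (hf : CAt 2 f x) : dn g w (dn g w f) x =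
    gq (hess g f) (nv g w) (nv g w) x +
      uu g w x * iv (gb g 1 w) (fl (hess g w) (nv g w)) (df f) x := by
  have h0 := (w_pos hg w x).ne'
  have e : ∀ k, pd k (dn g w f) x = fl (hess g f) (nv g w) k x +
      uu g w x * (fl (hess g w) (gr g f) k x - dn g w f x * fl (hess g w) (nv g w) k x) := by
    intro k
    rw [show dn g w f = fun y => ip g w f y / ww g 1 w y from rfl,
      pd_div (hg.diff_ip (hw.c2 x) hf) ((sm_w hg hw).diff x) h0, hg.pd_ip (hw.c2 x) hf, pd_ww hg hw]
    have : fl (hess g f) (nv g w) k x = (∑ i, hess g f x k i * gr g w i x) / ww g 1 w x := by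
      simp only [fl, nv, ← mul_div_assoc, Finset.sum_div]
    rw [this, uu, fl, fl]
    field_simp
    ring
  have e2 : ev (fl (hess g w) (gr g f)) (nv g w) x = ev (fl (hess g w) (nv g w)) (gr g f) x := by
    rw [← gq_eq_ev, ← gq_eq_ev, gq, gq, Finset.sum_comm]
    exact Finset.sum_congr rfl fun _ _ => Finset.sum_congr rfl fun _ _ => by
      rw [hg.hess_sy (hw.c2 x)]; ring
  rw [iv_g hg, iv_eq_ev, sh_df, ← e2, ev_df_nv hg, gq_eq_ev, dn_eq hg w (dn g w f)]
  simp only [e, ev, Finset.mul_sum, Finset.sum_mul, mul_sub, ← Finset.sum_sub_distrib,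
    ← Finset.sum_add_distrib]
  exact Finset.sum_congr rfl fun _ _ => by ring

/-- the mixed norm of a 2-tensor -/
def mx (g g' T : Fld n M) (x : M) : ℝ := ∑ i, ∑ j, ∑ k, ∑ l, up g i k x * up g' j l x * T x i j * T x k l

theorem mx_nn' (hg : Met g) (hg' : Met g') (x : M) (S : Fin n → Fin n → ℝ) :
    0 ≤ ∑ i, ∑ j, ∑ k, ∑ l, up g i k x * up g' j l x * S i j * S k l := by
  refine (((hg.inv_pos x).posSemidef.kronecker
    (hg'.inv_pos x).posSemidef).dotProduct_mulVec_nonneg fun p => S p.1 p.2).trans_eq ?_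
  simp only [dotProduct, Matrix.mulVec, star_trivial, Finset.mul_sum, Matrix.kroneckerMap,
    Matrix.of_apply, up, Fintype.sum_prod_type]
  exact Finset.sum_congr rfl fun i _ => Finset.sum_congr rfl fun j _ =>
    Finset.sum_congr rfl fun k _ => Finset.sum_congr rfl fun l _ => by ring

theorem mx_nn (hg : Met g) (hg' : Met g') (T : Fld n M) (x : M) : 0 ≤ mx g g' T x :=
  mx_nn' hg hg' x (T x)

/-- the inequality of Cauchy and Schwarz for 2-tensors -/
theorem mx_cs (hg : Met g) (hg' : Met g') (S T : Fld n M) (x : M) :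
    (∑ i, ∑ j, ∑ k, ∑ l, up g i k x * up g' j l x * T x i j * S x k l) ^ 2 ≤
      mx g g' T x * mx g g' S x := by
  have e : ∑ i, ∑ j, ∑ k, ∑ l, up g i k x * up g' j l x * S x i j * T x k l =
      ∑ i, ∑ j, ∑ k, ∑ l, up g i k x * up g' j l x * T x i j * S x k l := by
    rw [sum4_comm]
    exact Finset.sum_congr rfl fun i _ => Finset.sum_congr rfl fun j _ =>
      Finset.sum_congr rfl fun k _ => Finset.sum_congr rfl fun l _ => by
        rw [hg.up_sy k i, hg'.up_sy l j]; ring
  have key : ∀ t : ℝ, 0 ≤ mx g g' S x * (t * t) + (2 * ∑ i, ∑ j, ∑ k, ∑ l, up g i k x *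
      up g' j l x * T x i j * S x k l) * t + mx g g' T x := by
    intro t
    refine (mx_nn' hg hg' x fun i j => t * S x i j + T x i j).trans_eq ?_
    rw [two_mul]
    nth_rw 1 [← e]
    simp only [mx, add_mul, Finset.sum_mul, ← Finset.sum_add_distrib]
    exact Finset.sum_congr rfl fun _ _ => Finset.sum_congr rfl fun _ _ =>
      Finset.sum_congr rfl fun _ _ => Finset.sum_congr rfl fun _ _ => by ring
  have h := discrim_le_zero key
  unfold discrim at h
  nlinarith

theorem mx_pair (g g' T : Fld n M) (a b : Fin n → M → ℝ) (x : M) :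
    ∑ i, ∑ j, ∑ k, ∑ l, up g i k x * up g' j l x * T x i j * (a k x * b l x) =
      gq T (sh g a) (sh g' b) x := by
  simp only [gq, sh, Finset.mul_sum, Finset.sum_mul]
  refine Finset.sum_congr rfl fun i _ => Finset.sum_congr rfl fun j _ => ?_
  rw [Finset.sum_comm]
  exact Finset.sum_congr rfl fun _ _ => Finset.sum_congr rfl fun _ _ => by ring

omit [Mf0 n M] in
theorem gq_tens (a b X Y : Fin n → M → ℝ) (x : M) :
    gq (fun y i j => a i y * b j y) X Y x = ev a X x * ev b Y x := by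
  simp only [gq, ev, Finset.sum_mul_sum]
  exact Finset.sum_congr rfl fun _ _ => Finset.sum_congr rfl fun _ _ => by ring

/-- `T (X, Y)² ≤ |T|² |X|² |Y|²` with two metrics -/
theorem gq_sq_le (hg : Met g) (hg' : Met g') (T : Fld n M) (X Y : Fin n → M → ℝ) (x : M) :
    gq T X Y x ^ 2 ≤ mx g g' T x * (gq g X X x * gq g' Y Y x) := by
  have h := mx_cs hg hg' (fun y i j => fl g X i y * fl g' Y j y) T x
  rw [mx_pair, sh_fl hg, sh_fl hg'] at h
  refine h.trans_eq (congrArg _ ?_)
  rw [mx, mx_pair g g' (fun y i j => fl g X i y * fl g' Y j y), sh_fl hg, sh_fl hg', gq_tens,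
    ← gq_eq_ev, ← gq_eq_ev]

/-- the shifted Hessian -/
def BB (q : ℝ) (g : Fld n M) (w : M → ℝ) : Fld n M := fun x i j =>
  hess g w x i j - q / w x * (pd i w x * pd j w x)

theorem sh_g_df (hg : Met g) (w : M → ℝ) (i : Fin n) (x : M) :
    sh (gb g 1 w) (df w) i x = uu g w x * nv g w i x := by
  have := (w_pos hg w x).ne'
  rw [sh_g hg, ev_df_nv hg, dn_self hg, sh_df, nv, uu]; field_simp; ring

theorem hq_eq (hg : Met g) (hw : Smooth w) (q : ℝ) (x : M) :
    hq q g w x = uu g w x ^ 2 * mx (gb g 1 w) g (BB q g w) x := by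
  have h0 := (w_pos hg w x).ne'
  have hg' := met_g hg hw
  have e0 : ∀ i, pd i (lw g w) x = uu g w x * fl (hess g w) (nv g w) i x := fun i => by
    rw [pd_lw hg (hw.c2 x), pd_ww hg hw, uu, fl]; ring
  have e1 : dn g w (lw g w) x = uu g w x * gq (hess g w) (nv g w) (nv g w) x := by
    rw [dn_eq hg, gq_eq_ev, ev, Finset.mul_sum]
    exact Finset.sum_congr rfl fun i _ => by rw [e0]; ring
  have e2 : a2 g w x + ip (gb g 1 w) (lw g w) (lw g w) x =
      uu g w x ^ 2 * mx (gb g 1 w) g (hess g w) x := by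
    simp only [a2, normSq, ip, e0, mx, fl, Finset.mul_sum, Finset.sum_mul]
    rw [← Finset.sum_add_distrib]
    refine Finset.sum_congr rfl fun i _ => ?_
    rw [Finset.sum_comm (γ := Fin n) (s := univ) (t := univ) (f := fun j k => ∑ l, _),
      Finset.sum_comm (γ := Fin n) (s := univ) (t := univ) (f := fun j k => ∑ l, uu g w x ^ 2 * _),
      ← Finset.sum_add_distrib]
    refine Finset.sum_congr rfl fun k _ => ?_
    rw [Finset.sum_comm (γ := Fin n) (s := univ) (t := univ) (f := fun j l => up _ _ _ _ * (_ * _) * _),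
      ← Finset.sum_add_distrib]
    refine Finset.sum_congr rfl fun j _ => ?_
    rw [← Finset.sum_add_distrib]
    refine Finset.sum_congr rfl fun l _ => ?_
    rw [up_g hg w j l, uu]
    field_simp
    ring
  have e3 : gq (hess g w) (sh (gb g 1 w) (df w)) (sh g (df w)) x =
      gq (hess g w) (nv g w) (nv g w) x := by
    refine Finset.sum_congr rfl fun i _ => Finset.sum_congr rfl fun j _ => ?_
    rw [sh_g_df hg, sh_df, uu, nv, nv]; field_simp
  have e4 : gq (fun y i j => df w i y * df w j y) (sh (gb g 1 w) (df w)) (sh g (df w)) x =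
      (1 - uu g w x ^ 2) * (ww g 1 w x ^ 2 - 1) := by
    rw [gq_tens, ← iv_eq_ev, ← iv_eq_ev, iv_df, iv_df, ip_g_self hg, w_sq hg]; ring
  have e5 : mx (gb g 1 w) g (BB q g w) x = mx (gb g 1 w) g (hess g w) x -
      2 * (q / w x) * gq (hess g w) (nv g w) (nv g w) x +
      (q / w x) ^ 2 * ((1 - uu g w x ^ 2) * (ww g 1 w x ^ 2 - 1)) := by
    have e6 : ∑ i, ∑ j, ∑ k, ∑ l, up (gb g 1 w) i k x * up g j l x * (df w i x * df w j x) *
        hess g w x k l = gq (hess g w) (nv g w) (nv g w) x := by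
      rw [← e3, ← mx_pair, sum4_comm]
      exact Finset.sum_congr rfl fun i _ => Finset.sum_congr rfl fun j _ =>
        Finset.sum_congr rfl fun k _ => Finset.sum_congr rfl fun l _ => by
          rw [hg'.up_sy k i, hg.up_sy l j]; ring
    rw [← e4, ← mx_pair, mul_assoc, two_mul]
    nth_rw 1 [← e6]
    rw [← e3, ← mx_pair]
    simp only [mx, BB, df, Finset.mul_sum, ← Finset.sum_add_distrib, ← Finset.sum_sub_distrib]
    exact Finset.sum_congr rfl fun _ _ => Finset.sum_congr rfl fun _ _ =>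
      Finset.sum_congr rfl fun _ _ => Finset.sum_congr rfl fun _ _ => by ring
  rw [hq, e1, e2, e5, uu]
  field_simp

theorem hq_nn (hg : Met g) (hw : Smooth w) (q : ℝ) (x : M) : 0 ≤ hq q g w x := by
  rw [hq_eq hg hw]; exact mul_nonneg (sq_nonneg _) (mx_nn (met_g hg hw) hg _ x)

/-- `u² B (X, Y)² ≤ hq |X|² |Y|²`, the first length for the new metric, the second for the old -/
theorem BB_sq_le (hg : Met g) (hw : Smooth w) (q : ℝ) (X Y : Fin n → M → ℝ) (x : M) :
    (uu g w x * gq (BB q g w) X Y x) ^ 2 ≤ hq q g w x * (gq (gb g 1 w) X X x * gq g Y Y x) := by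
  rw [hq_eq hg hw, mul_pow, mul_assoc]
  exact mul_le_mul_of_nonneg_left (gq_sq_le (met_g hg hw) hg _ X Y x) (sq_nonneg _)

theorem gq_hess (q : ℝ) (g : Fld n M) (w : M → ℝ) (X Y : Fin n → M → ℝ) (x : M) :
    gq (hess g w) X Y x = gq (BB q g w) X Y x + q / w x * (ev (df w) X x * ev (df w) Y x) := by
  rw [← gq_tens]
  simp only [gq, BB, df, Finset.mul_sum, ← Finset.sum_add_distrib]
  exact Finset.sum_congr rfl fun _ _ => Finset.sum_congr rfl fun _ _ => by ring

theorem abs_gq_le2 (hg : Met g) (T : Fld n M) (X Y : Fin n → M → ℝ) (x : M) :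
    gq T X Y x ^ 2 ≤ normSq g T x * gq g X X x * gq g Y Y x :=
  (gq_sq_le hg hg T X Y x).trans_eq (mul_assoc _ _ _).symm

/-- duality -/
theorem two_ev_le (hg : Met g) (a X : Fin n → M → ℝ) (x : M) :
    2 * ev a X x ≤ iv g a a x + gq g X X x := by
  have h := iv_nonneg hg (fun i y => 1 * a i y + (-1) * fl g X i y) x
  rw [iv_sq hg (b := a) (c := fl g X) fun _ => rfl, iv_fl hg, iv_eq_ev g a (fl g X), sh_fl hg] at h
  linarith

theorem tr_sq_le (hg : Met g) (T : Fld n M) (x : M) : tr g T x ^ 2 ≤ n * normSq g T x := by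
  have h := mx_cs hg hg g T x
  have e : ∀ S : Fld n M, ∑ i, ∑ j, ∑ k, ∑ l, up g i k x * up g j l x * S x i j * g x k l =
      tr g S x := fun S => by
    refine Finset.sum_congr rfl fun i _ => Finset.sum_congr rfl fun j _ => ?_
    rw [hg.up_sy i j, ← hg.up_g_mul x i fun l => up g j l x, Finset.sum_mul]
    refine Finset.sum_congr rfl fun k _ => ?_
    rw [Finset.mul_sum, Finset.sum_mul]
    exact Finset.sum_congr rfl fun l _ => by ring
  have e2 : tr g g x = n := by
    have : ∀ i, ∑ j, up g i j x * g x i j = 1 := fun i => by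
      have := hg.up_mul i i x
      rw [if_pos rfl] at this
      exact (Finset.sum_congr rfl fun j _ => by rw [hg.sy x i j]).trans this
    simp [tr, this]
  rw [e, mx, mx, e, e2, mul_comm] at h
  exact h

end Vale.Agent.P210D
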